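import Crest.Agent.N265.Psi.Srf

/-!
# Row 265, PSI part 6 (helper25): from ideals to `G S`

`psi_of_curveIn` : PSI follows from the computation `CurveIn` of principal divisors on curves.
-/

set_option autoImplicit false
set_option linter.unusedSectionVars false
noncomputable section
open MvPolynomial

namespace Crest.Agent.N265.Psi

open Crest.Agent.N265.Jac Crest.Agent.R013.RR7_948 Crest.Agent.R013.RR11_948

variable {b : ℕ} {S : Spc}

theorem wf_finJ {U : Set (Ideal R)} (hU : ∀ J ∈ U, FinJ J) :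
    WellFounded fun X Y : Ideal R => Y ∈ U ∧ Y < X := by
  refine ⟨fun Y => ?_⟩
  by_cases hY : Y ∈ U
  · have key : ∀ Y', Y ≤ Y' → Acc (fun X Y : Ideal R => Y ∈ U ∧ Y < X) Y' := by
      intro Y'
      induction Y' using (wf_of_finJ (hU Y hY)).induction with
      | _ Y' ih => exact fun hle => ⟨_, fun X hX => ih X ⟨hle, hX.2⟩ (hle.trans hX.2.le)⟩
    exact key Y le_rfl
  · exact ⟨_, fun X hX => (hY hX.1).elim⟩

/-- annihilators of homogeneous elements of modules on `S` -/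
def UO (S : Spc) (b : ℕ) : Set (Ideal R) :=
  {J | grR.HS J ∧ FinJ J ∧ (∀ v : Var, v.1 ≠ b → (X v : R) ∈ J) ∧
    ∀ x, Rel S.B x → x ∉ S.pts → ¬ J ≤ mx x}

/-- annihilators of homogeneous elements of irrelevant modules on `S` -/
def UI (S : Spc) (b : ℕ) : Set (Ideal R) := {J | J ∈ UO S b ∧ ∀ x ∈ S.pts, ¬ J ≤ mx x}

theorem UO_up {J J' : Ideal R} (hJ : J ∈ UO S b) (hJ' : grR.HS J') (hle : J ≤ J') :
    J' ∈ UO S b :=
  ⟨hJ', hJ.2.1.mono hle, fun v hv => hle (hJ.2.2.1 v hv),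
    fun x h1 h2 h3 => hJ.2.2.2 x h1 h2 (hle.trans h3)⟩

theorem top_not_le_mx (x : Pt) : ¬ ⊤ ≤ mx x := fun h => (mx_isMaximal x).ne_top (top_le_iff.1 h)

theorem top_mem_UO : ⊤ ∈ UO S b :=
  ⟨grR.HS_top, ⟨∅, fun _ _ => trivial⟩, fun _ _ => trivial, fun x _ _ => top_not_le_mx x⟩

theorem famO : Fam grR (UO S b) where
  hom _ hJ := hJ.1
  up _ hJ _ hJ' hle := UO_up hJ hJ' hle
  top := top_mem_UO
  wf := wf_finJ fun _ hJ => hJ.2.1

theorem famI : Fam grR (UI S b) where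
  hom _ hJ := hJ.1.1
  up _ hJ _ hJ' hle := ⟨UO_up hJ.1 hJ' hle, fun x hx h => hJ.2 x hx (hle.trans h)⟩
  top := ⟨top_mem_UO, fun x _ => top_not_le_mx x⟩
  wf := wf_finJ fun _ hJ => hJ.1.2.1

theorem prime_mem_U2 (h : SurfOK S b) {P : Ideal R} (hP : P ∈ UO S b) (hp : HPr grR P) :
    P ∈ (ctx h).U2 := by
  refine ⟨hP.1, (I_HS S).le_of_H fun d r hr hrI => ?_⟩
  obtain ⟨k, hk⟩ := nss hP.2.1 (a := r) fun y hy => by
    by_cases h1 : Rel S.B y
    · by_contra h2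
      exact hP.2.2.2 y h1 (fun h3 => h2 (hrI y h3)) hy
    · have h2 : y = 0 := by
        funext v
        by_cases hv : v.1 = b
        · by_contra h3
          exact h1 (h.rel_iff.2 ⟨v, hv, h3⟩)
        · simpa [mem_mx] using hy (hP.2.2.1 v hv)
      obtain ⟨x, hx⟩ := h.nonempty
      have h3 := (h.good hx).scale_eq_zero (H_iff.1 hr) (hrI x hx) 0
      rw [zero_smul] at h3
      rw [h2]
      exact h3
  exact (hp.isPrime hP.1).mem_of_pow_mem k hk

theorem adm_of_on (h : SurfOK S b) {M : GM} (hM : M.On S) : Adm grR (UO S b) (grM M) where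
  compat := compat_grM M
  ann j m hm := by
    refine ⟨(compat_grM M).HS_col (grM M).HS_bot hm, ?_, fun v hv => ?_, fun x h1 h2 h3 => ?_⟩
    · obtain ⟨V, hV⟩ := M.fin
      exact ⟨V, fun v hv => mem_col.2 (hV v hv m)⟩
    · rw [mem_col, Submodule.mem_bot]
      by_cases hj : j ∈ DS S.B
      · have h1 := smul_mem_gr (hmg_X v) (HM_iff.1 hm)
        rw [hM.deg (vdeg v + j) fun h2 => ?_] at h1
        · exact h1
        · have hv' : v.1 ∉ S.B := by simpa [h.blk] using hv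
          have h3 := h2 v.1 hv'
          have h4 := hj v.1 hv'
          simp [vdeg, eB, eT, h4] at h3
      · have h1 := HM_iff.1 hm
        rw [hM.deg j hj, Submodule.mem_bot] at h1
        rw [h1, smul_zero]
    · obtain ⟨r, hr, hr'⟩ := hM.supp x h1 h2
      exact hr (h3 (mem_col.2 (hr' m)))

theorem adm_of_irr (h : SurfOK S b) {M : GM} (hM : M.On S) (hi : M.Irr S) :
    Adm grR (UI S b) (grM M) where
  compat := compat_grM M
  ann j m hm := ⟨(adm_of_on h hM).ann j m hm, fun x hx h3 => by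
    obtain ⟨r, hr, hr'⟩ := hi x hx
    exact hr (h3 (mem_col.2 (hr' m)))⟩

theorem fg_grM (M : GM) : (grM M).FG R := (grM M).fg_of_finite

/-- an additive function on ideals gives an additive map on `G S` -/
theorem exists_G (h : SurfOK S b) {A : Type} [AddCommGroup A] {Ψ : Ideal R → D → A}
    (hΨ : CycAdd grR (ctx h).U2 Ψ) (hm : ∀ J ∈ (ctx h).Um, ∀ γ, Ψ J γ = 0) :
    ∃ ψ : G S →+ A, ∀ (M : GM) (J : Ideal R) (γ : D), M.On S → J ∈ (ctx h).U2 →
      (∃ m ∈ M.gr γ, Submodule.span R {m} = ⊤ ∧ ∀ r : R, r • m = 0 ↔ r ∈ J) →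
      ψ (cl S M) = Ψ J γ := by
  obtain ⟨Φ, h1, h2, -⟩ := extend (ctx h).fam2 (famO (S := S) (b := b)) hΨ (fun _ _ => 0)
    fun P hP hn hp => (hn (prime_mem_U2 h hP hp)).elim
  have h3 : ∀ J ∈ UI S b, ∀ γ, Φ J γ = 0 :=
    famI.induction (fun γ => (h1 ⊤ top_mem_UO).top_eq_zero γ)
      (fun P hP hp γ => by
        have h4 := prime_mem_U2 h hP.1 hp
        rw [h2 P h4, hm P (mem_Um h h4 hP.2)])
      fun J hJ d a γ ha i1 i2 => by rw [h1 J hJ.1 d a γ ha, i1, i2, add_zero]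
  let f : FreeAbelianGroup {M : GM // M.On S} →+ A :=
    FreeAbelianGroup.lift fun M => psi Φ (grM M.1)
  have hf : AddSubgroup.closure (GRel S) ≤ f.ker := by
    rw [AddSubgroup.closure_le]
    rintro z (⟨M₁, M₂, M₃, ⟨i, p, hi, hp, i1, i2, i3⟩, rfl⟩ | ⟨M, hM, rfl⟩)
    · simp only [SetLike.mem_coe, AddMonoidHom.mem_ker, map_sub, f, FreeAbelianGroup.lift_apply_of]
      rw [psi_exact famO h1 (adm_of_on h M₂.2) (adm_of_on h M₁.2) (adm_of_on h M₃.2) (fg_grM _)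
        (fg_grM _) i1 i3 i2 (fun j m hm => HM_iff.2 (deg0_mem_gr hi (HM_iff.1 hm)))
        (fun j m => deg0_p hp j m)]
      abel
    · simp only [SetLike.mem_coe, AddMonoidHom.mem_ker, f, FreeAbelianGroup.lift_apply_of]
      exact psi_eq_zero famI (adm_of_irr h M.2 hM) h3
  refine ⟨QuotientAddGroup.lift _ f hf, fun M J γ hM hJ ⟨m, hm1, hm2, hm3⟩ => ?_⟩
  have e : col (⊥ : Submodule R M.M) m = J := by
    ext r
    rw [mem_col, Submodule.mem_bot, hm3]
  have e2 : cl S M = (QuotientAddGroup.mk (FreeAbelianGroup.of ⟨M, hM⟩) :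
      _ ⧸ AddSubgroup.closure (GRel S)) := dif_pos hM
  rw [e2, ← h2 J hJ, ← e, ← psi_cyclic famO h1 (adm_of_on h hM) (HM_iff.2 hm1) hm2]
  exact FreeAbelianGroup.lift_apply_of (fun M : {M : GM // M.On S} => psi Φ (grM M.1)) ⟨M, hM⟩

/-- principal divisors on curves -/
def CurveIn (h : SurfOK S b) : Prop :=
  ∀ Ψ : Ideal R → D → (Ideal R →₀ ℤ), CycAdd grR (ctx h).U0 Ψ →
    (∀ J ∈ (ctx h).Um, ∀ γ, Ψ J γ = 0) →
    (∀ P, (ctx h).IsPt P → ∀ γ, Ψ P γ = Finsupp.single P 1) →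
    ∀ Q, (ctx h).IsCv Q → ∀ (d : D) (a a' : R) (γ : D), Hmg d a → Hmg d a' → a ∉ Q → a' ∉ Q →
      ∃ (C : Crv S) (ctr : Pl ℂ C.K → Pt) (f : C.K), (∀ Q', C.Cen Q' (ctr Q')) ∧ f ≠ 0 ∧
        Ψ (adj Q a) γ - Ψ (adj Q a') γ = (divf (k := ℂ) f).mapDomain fun Q' => lineI (ctr Q')

theorem psi_of_curveIn (h : SurfOK S b) (hc : CurveIn h) : PsiStmt S b := by
  classical
  have hrep : ∀ P : Ideal R, ∃ y : Pt, ∀ x ∈ S.pts, P = lineI x →
      Finsupp.single y (1 : ℤ) - Finsupp.single x 1 ∈ RatEq S := by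
    intro P
    by_cases hP : ∃ y ∈ S.pts, P = lineI y
    · obtain ⟨y, hy, rfl⟩ := hP
      refine ⟨y, fun x hx e => ?_⟩
      obtain ⟨c, hc, rfl⟩ := eq_smul_of_lineI_le (h.ne_zero hx) (h.ne_zero hy) e.ge
      exact AddSubgroup.subset_closure (Or.inl ⟨x, hx, c, hc, rfl⟩)
    · exact ⟨0, fun x hx e => (hP ⟨x, hx, e⟩).elim⟩
  choose rep hrep using hrep
  let mk := QuotientAddGroup.mk' (RatEq S)
  let t : (Ideal R →₀ ℤ) →+ (Pt →₀ ℤ) ⧸ RatEq S := mk.comp (Finsupp.mapDomain.addMonoidHom rep)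
  have ht : ∀ x ∈ S.pts, ∀ n : ℤ, t (Finsupp.single (lineI x) n) = mk (Finsupp.single x n) := by
    intro x hx n
    have h1 : mk (Finsupp.single (rep (lineI x)) 1) = mk (Finsupp.single x 1) := by
      rw [← sub_eq_zero, ← map_sub]
      exact (QuotientAddGroup.eq_zero_iff _).2 (hrep _ x hx rfl)
    have h2 : ∀ y : Pt, Finsupp.single y n = n • Finsupp.single y (1 : ℤ) := fun y => by simp
    simp only [t, AddMonoidHom.comp_apply, Finsupp.mapDomain.addMonoidHom_apply,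
      Finsupp.mapDomain_single]
    rw [h2, h2 x, map_zsmul, map_zsmul, h1]
  obtain ⟨Z, z1, z2, z3⟩ := (ctx h).level0 fun P => Finsupp.single P (1 : ℤ)
  have y1 : CycAdd (ctx h).A (ctx h).U0 fun J γ => t (Z J γ) :=
    fun J hJ d a γ ha => by simp only [z1 J hJ d a γ ha, map_add]
  have y2 : ∀ J ∈ (ctx h).Um, ∀ γ, t (Z J γ) = 0 := fun J hJ γ => by rw [z2 J hJ, map_zero]
  obtain ⟨A, _, κ, Ψ, k1, k2, k3⟩ := Ctx.main (ctx_dim h) (ctx_nrm h) (ctx_big h) y1 y2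
    (Ctx.inv_of (ctx h).fam0 (fun _ hJ => hJ.1) y1 fun P hP hp γ => by
      by_cases hm : P ∈ (ctx h).Um
      · rw [y2 P hm, y2 P hm]
      · rw [z3 P (Ctx.isPt_of hP hm hp), z3 P (Ctx.isPt_of hP hm hp)])
    fun Q hQ d a a' γ ha ha' haQ haQ' => by
      obtain ⟨C, ctr, f, c1, c2, c3⟩ := hc Z z1 z2 z3 Q hQ d a a' γ (H_iff.1 ha) (H_iff.1 ha')
        haQ haQ'
      have key : ∀ z : Pl ℂ C.K →₀ ℤ,
          t (z.mapDomain fun Q' => lineI (ctr Q')) = mk (z.mapDomain ctr) := by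
        intro z
        induction z using Finsupp.induction_linear with
        | zero => simp
        | add z z' i1 i2 => simp only [Finsupp.mapDomain_add, map_add, i1, i2]
        | single Q' n => simp only [Finsupp.mapDomain_single, ht _ (c1 Q').1]
      rw [← sub_eq_zero, ← map_sub, c3, key]
      exact (QuotientAddGroup.eq_zero_iff _).2
        (AddSubgroup.subset_closure (Or.inr ⟨C, ctr, f, c1, c2, rfl⟩))
  refine ⟨A, inferInstance, κ.comp mk, fun z hz => ?_, fun wt hw => ?_⟩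
  · rw [AddMonoidHom.mem_ker, AddMonoidHom.comp_apply, ← map_zero κ] at hz
    exact (QuotientAddGroup.eq_zero_iff _).1 (k1 hz)
  obtain ⟨ψ, hψ⟩ := exists_G h (Ctx.cycAdd_wt (ctx h).fam2 subset_rfl k2 wt hw)
    fun J hJ γ => by rw [k3 J ((ctx h).Um_sub hJ), y2 J hJ, map_zero, smul_zero]
  refine ⟨ψ, fun M x γ hx hM hp => ?_⟩
  have hpt := isPt_lineI h hx
  rw [hψ M (lineI x) γ hM hpt.1.1 hp, k3 _ hpt.mem_U0, z3 _ hpt, ht x hx]
  rfl

end Crest.Agent.N265.Psi
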