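import Crest.Agent.N265.Psi.Cen
import Crest.Agent.N265.Psi.Top

/-!
# Row 265, PSI part 9 (helper25): the function field of a curve on `S`; **PSI**

`exists_crv` : a curve prime `Q` is the ideal of a `Crv S`.  `psi_of_surfOK : SurfOK S b → PsiStmt S b`.
-/

set_option autoImplicit false
set_option linter.unusedSectionVars false
noncomputable section
open MvPolynomial

namespace Crest.Agent.N265.Psi

open Crest.Agent.N265.Jac Crest.Agent.R013.RR7_948 Crest.Agent.R013.RR11_948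
  Crest.Agent.R270.Crv_110

variable {b : ℕ} {S : Spc}

section Homog

variable {K : Type} [Field K] [Algebra ℂ K] {ξ : Var → K} {w : Var}

theorem raise (hξ : Good b ξ) (hw : ξ w = 1) {n : ℕ} {a : R} (ha : Hmg (n • eB b) a) (m : ℕ) :
    ∃ a', Hmg ((n + m) • eB b) a' ∧ aeval ξ a' = aeval ξ a :=
  ⟨a * X w ^ m, by
    rw [add_smul]
    exact hmg_mul ha (hmg_Xpow (hξ w (hw ▸ one_ne_zero)) m), by simp [hw]⟩

/-- homogenisation -/
theorem homog (hξ : Good b ξ) (hw : ξ w = 1) (r : R) :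
    ∃ (n : ℕ) (a : R), Hmg (n • eB b) a ∧ aeval ξ a = aeval ξ r := by
  induction r using MvPolynomial.induction_on with
  | C c => exact ⟨0, C c, by simpa using hmg_C c, rfl⟩
  | add p q hp hq =>
    obtain ⟨n, a, h1, h2⟩ := hp
    obtain ⟨m, a', h1', h2'⟩ := hq
    obtain ⟨u, u1, u2⟩ := raise hξ hw h1 m
    obtain ⟨u', u1', u2'⟩ := raise hξ hw h1' n
    rw [add_comm m n] at u1'
    exact ⟨n + m, u + u', hmg_add u1 u1', by rw [map_add, map_add, u2, u2', h2, h2']⟩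
  | mul_X p v hp =>
    obtain ⟨n, a, h1, h2⟩ := hp
    by_cases hv : ξ v = 0
    · exact ⟨0, 0, hmg_zero _, by simp [hv]⟩
    · refine ⟨n + 1, a * X v, ?_, by simp [h2]⟩
      rw [succ_nsmul, ← vdeg_good (hξ v hv)]
      exact hmg_mul (vdeg_good (hξ v hv) ▸ h1) (hmg_X v)

end Homog

/-- the largest homogeneous ideal inside an ideal -/
def hcore (p : Ideal R) : Ideal R := Ideal.span {a | (∃ d, Hmg d a) ∧ a ∈ p}

theorem hcore_le (p : Ideal R) : hcore p ≤ p := Ideal.span_le.2 fun _ h => h.2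

theorem mem_hcore {p : Ideal R} {d : D} {a : R} (ha : Hmg d a) : a ∈ hcore p ↔ a ∈ p :=
  ⟨fun h => hcore_le p h, fun h => Ideal.subset_span ⟨⟨d, ha⟩, h⟩⟩

theorem hcore_HS (p : Ideal R) : grR.HS (hcore p) := by
  refine HS_iff.2 fun r hr => ?_
  induction hr using Submodule.span_induction with
  | mem a ha =>
    obtain ⟨⟨d, hd⟩, h⟩ := ha
    rw [hd]
    exact Ideal.mul_mem_left _ _ ((mem_hcore hd).2 h)
  | zero => simp
  | add x y _ _ hx hy => rw [map_add]; exact add_mem hx hy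
  | smul s x _ hx => rw [smul_eq_mul, map_mul]; exact Ideal.mul_mem_left _ _ hx

theorem hcore_HPr {p : Ideal R} (hp : p.IsPrime) : HPr grR (hcore p) :=
  ⟨fun h => hp.ne_top (top_le_iff.1 (h ▸ hcore_le p)), fun _ _ _ _ ha hb h => by
    rw [mem_hcore (H_iff.1 ha), mem_hcore (H_iff.1 hb)]
    exact hp.mem_or_mem (hcore_le p h)⟩

/-- the affine coordinate ring of a curve has dimension at most one -/
theorem dim_range {h : SurfOK S b} {Q : Ideal R} (hQ : (ctx h).IsCv Q) {K : Type} [Field K]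
    [Algebra ℂ K] {ξ : Var → K} {w : Var} (hξ : Good b ξ) (hw : ξ w = 1)
    (hK : ∀ d a, Hmg d a → a ∈ Q → aeval ξ a = 0) :
    ringKrullDim (aeval ξ : R →ₐ[ℂ] K).range ≤ 1 := by
  set θ := (aeval ξ : R →ₐ[ℂ] K).rangeRestrict
  have gw := hξ w (hw ▸ one_ne_zero)
  have hQle : ∀ p : Ideal (aeval ξ : R →ₐ[ℂ] K).range, Q ≤ hcore (p.comap θ) := fun p =>
    hQ.1.1.1.le_of_H fun d a ha haQ => (mem_hcore (H_iff.1 ha)).2 (by
      rw [Ideal.mem_comap, show θ a = 0 from Subtype.ext (hK d a (H_iff.1 ha) haQ)]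
      exact zero_mem _)
  have hrp : ∀ p : Ideal (aeval ξ : R →ₐ[ℂ] K).range, p.IsPrime → (ctx h).RP (hcore (p.comap θ)) :=
    fun p hp => ⟨⟨hcore_HS _, hQ.1.1.2.trans (hQle p)⟩, hcore_HPr (Ideal.comap_isPrime θ p), X w,
      ⟨w, gw, rfl⟩, fun h0 => by
        have h1 := hcore_le _ h0
        rw [Ideal.mem_comap, show θ (X w) = 1 from Subtype.ext (by simp [θ, hw])] at h1
        exact hp.ne_top ((Ideal.eq_top_iff_one p).2 h1)⟩
  have hlt : ∀ p q : Ideal (aeval ξ : R →ₐ[ℂ] K).range, p < q →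
      hcore (p.comap θ) < hcore (q.comap θ) := by
    intro p q hpq
    refine lt_of_le_of_ne (Ideal.span_mono fun a ha => ⟨ha.1, Ideal.comap_mono hpq.le ha.2⟩)
      fun e => hpq.not_ge ?_
    rintro ⟨_, r, rfl⟩ hr
    obtain ⟨n, a, h1, h2⟩ := homog hξ hw r
    have e2 : θ a = ⟨_, r, rfl⟩ := Subtype.ext h2
    have h3 : a ∈ hcore (q.comap θ) := (mem_hcore h1).2 (by rw [Ideal.mem_comap, e2]; exact hr)
    rw [← e, mem_hcore h1, Ideal.mem_comap, e2] at h3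
    exact h3
  have : Ring.KrullDimLE 1 (aeval ξ : R →ₐ[ℂ] K).range := by
    refine Ring.krullDimLE_one_iff_of_noZeroDivisors.2 fun p hp0 hp => ?_
    obtain ⟨m, hm, hle⟩ := p.exists_le_maximal hp.ne_top
    rcases hle.eq_or_lt with e | e
    · exact e ▸ hm
    · exact (ctx_dim h _ _ _ (hrp ⊥ Ideal.isPrime_bot) (hrp p hp) (hrp m hm.isPrime)
        (hQ.2.1.trans_le (hQle ⊥)) (hlt ⊥ p (bot_lt_iff_ne_bot.2 hp0)) (hlt p m e)).elim
  exact_mod_cast Ring.krullDimLE_iff.1 this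

theorem exists_transc {h : SurfOK S b} {Q : Ideal R} (hQ : (ctx h).IsCv Q) {K : Type} [Field K]
    [Algebra ℂ K] {ξ : Var → K} {w : Var} (hξ : Good b ξ) (hw : ξ w = 1)
    (hK : ∀ d a, Hmg d a → (aeval ξ a = 0 ↔ a ∈ Q)) : ∃ y : K, Transcendental ℂ y := by
  by_contra h0
  have h1 : ∀ v, ∃ c : ℂ, algebraMap ℂ K c = ξ v := fun v => by
    have h2 : IsIntegral ℂ (ξ v) := (not_not.1 fun h3 => h0 ⟨ξ v, h3⟩ : IsAlgebraic ℂ _).isIntegral
    exact minpoly.mem_range_of_degree_eq_one ℂ _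
      (IsAlgClosed.degree_eq_one_of_irreducible ℂ (minpoly.irreducible h2))
  choose x hx using h1
  have h2 : ∀ r : R, aeval ξ r = algebraMap ℂ K (eval x r) := fun r => by
    induction r using MvPolynomial.induction_on with
    | C c => simp
    | add p q hp hq => simp [hp, hq]
    | mul_X p v hp => simp [hp, hx]
  have h3 : ∀ d a, Hmg d a → (eval x a = 0 ↔ a ∈ Q) := fun d a ha => by
    rw [← hK d a ha, h2, map_eq_zero (algebraMap ℂ K)]
  have h4 : Q ≤ mx x := hQ.1.1.1.le_of_H fun d a ha haQ => (h3 d a (H_iff.1 ha)).2 haQ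
  have h5 : x ∈ S.pts := S.closed x (h.rel_iff.2 ⟨w, (hξ w (hw ▸ one_ne_zero)).1, fun h5 => by
    have := hx w
    rw [h5, hw, map_zero] at this
    exact zero_ne_one this⟩) fun r hr => h4 (hQ.1.1.2 hr)
  have g := h.good h5
  refine hQ.2.2 ((isPt_iff h).2 ⟨x, h5, le_antisymm (g.le_lineI hQ.1.1.1 h4) ?_⟩)
  exact g.lineI_HS.le_of_H fun d a ha hax =>
    (h3 d a (H_iff.1 ha)).1 ((g.hmg_mem_lineI (H_iff.1 ha)).1 hax)

theorem aeval_frac (P : Ideal R) [P.IsPrime] (r : R) :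
    aeval (fun v => algebraMap (R ⧸ P) (FractionRing (R ⧸ P)) (Ideal.Quotient.mk P (X v))) r =
      algebraMap (R ⧸ P) (FractionRing (R ⧸ P)) (Ideal.Quotient.mk P r) := by
  induction r using MvPolynomial.induction_on with
  | C c =>
    rw [aeval_C, IsScalarTower.algebraMap_apply ℂ (R ⧸ P) (FractionRing (R ⧸ P))]
    rfl
  | add p q hp hq => simp only [map_add, hp, hq]
  | mul_X p v hp => simp only [map_mul, hp, aeval_X]

/-- the generic point of a prime ideal -/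
theorem exists_generic (P : Ideal R) (hP : P.IsPrime) : ∃ (K : Type) (_ : Field K) (_ : Algebra ℂ K)
    (ξ : Var → K), (∀ r : R, aeval ξ r = 0 ↔ r ∈ P) ∧
      ∀ f : K, ∃ r s : R, aeval ξ s ≠ 0 ∧ f * aeval ξ s = aeval ξ r := by
  refine ⟨FractionRing (R ⧸ P), inferInstance, inferInstance,
    fun v => algebraMap (R ⧸ P) _ (Ideal.Quotient.mk P (X v)), fun r => ?_, fun f => ?_⟩
  · rw [aeval_frac, IsFractionRing.to_map_eq_zero_iff, Ideal.Quotient.eq_zero_iff_mem]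
  · obtain ⟨a, s, hs, rfl⟩ := IsFractionRing.div_surjective (A := R ⧸ P) f
    obtain ⟨a, rfl⟩ := Ideal.Quotient.mk_surjective a
    obtain ⟨s, rfl⟩ := Ideal.Quotient.mk_surjective s
    have h1 := IsFractionRing.to_map_ne_zero_of_mem_nonZeroDivisors (K := FractionRing (R ⧸ P)) hs
    refine ⟨a, s, ?_, ?_⟩
    · rwa [aeval_frac]
    · rw [aeval_frac, aeval_frac, div_mul_cancel₀ _ h1]

/-- a curve prime is the ideal of a `Crv` -/
theorem exists_crv {h : SurfOK S b} {Q : Ideal R} (hQ : (ctx h).IsCv Q) :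
    ∃ C : Crv S, C.ξ ≠ 0 ∧ ∀ d a, Hmg d a → (aeval C.ξ a = 0 ↔ a ∈ Q) := by
  obtain ⟨⟨hh, hI⟩, hp, _, ⟨w, gw, rfl⟩, hw⟩ := hQ.1
  obtain ⟨F, _, _, ζ, z1, -⟩ := exists_generic Q (hp.isPrime hh)
  have gζ : Good b ζ := fun v hv => h.good_var fun h0 => hv (by simpa using (z1 _).2 (hI h0))
  have hζ : ζ w ≠ 0 := fun h0 => hw ((z1 _).1 (by simpa using h0))
  obtain ⟨K, _, _, ξ, x1, x2⟩ := exists_generic
    (RingHom.ker (aeval ((ζ w)⁻¹ • ζ) : R →ₐ[ℂ] F)) (RingHom.ker_isPrime _)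
  simp only [RingHom.mem_ker] at x1
  have hK : ∀ d a, Hmg d a → (aeval ξ a = 0 ↔ a ∈ Q) := fun d a ha => by
    rw [x1, ← z1]
    refine ⟨fun h0 => ?_, fun h0 => gζ.scale_eq_zero ha h0 _⟩
    have := (gζ.smul _).scale_eq_zero ha h0 (ζ w)
    rwa [smul_smul, mul_inv_cancel₀ hζ, one_smul] at this
  have hξw : ξ w = 1 := by
    have := (x1 (X w - 1)).2 (by simp [hζ])
    rwa [map_sub, aeval_X, map_one, sub_eq_zero] at this
  have hSI : ∀ r ∈ S.I, aeval ξ r = 0 := fun r hr =>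
    (hh.le_of_H fun d a ha haQ => (hK d a (H_iff.1 ha)).2 haQ :
      Q ≤ RingHom.ker (aeval ξ : R →ₐ[ℂ] K)) (hI hr)
  have gξ : Good b ξ := fun v hv => h.good_var fun h0 => hv (by simpa using hSI _ h0)
  obtain ⟨V, hV⟩ := finJ_I S
  obtain ⟨y, hy⟩ := exists_transc hQ gξ hξw hK
  obtain ⟨_, _, i1, i2⟩ := exists_ratAlg' (aeval ξ : R →ₐ[ℂ] K).range
    (fg_range V fun v hv => by simpa using hSI _ (hV v hv))
    (IsFractionRing.of_field _ _ fun f => by
      obtain ⟨r, s, h1, h2⟩ := x2 f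
      exact ⟨⟨_, r, rfl⟩, ⟨_, s, rfl⟩, (eq_div_iff h1).2 h2⟩)
    (dim_range hQ gξ hξw fun d a ha => (hK d a ha).2) hy
  refine ⟨{ K := K, ξ := ξ, hI := hSI, gen := fun f => ?_ }, fun h0 => ?_, hK⟩
  · obtain ⟨r, s, h1, h2⟩ := x2 f
    obtain ⟨n, a, a1, a2⟩ := homog gξ hξw r
    obtain ⟨m, t, t1, t2⟩ := homog gξ hξw s
    obtain ⟨u, u1, u2⟩ := raise gξ hξw a1 m
    obtain ⟨u', u1', u2'⟩ := raise gξ hξw t1 n
    rw [add_comm m n] at u1'
    exact ⟨_, u, u', u1, u1', by rwa [u2', t2], by rw [u2, u2', a2, t2, h2]⟩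
  · exact one_ne_zero (hξw.symm.trans (congrFun h0 w))

theorem mapDomain_apply_eq {α β : Type*} (g : α → β) (T : Finset α) (P : β)
    (hT : ∀ a, a ∈ T ↔ g a = P) (z : α →₀ ℤ) : z.mapDomain g P = ∑ a ∈ T, z a := by
  classical
  induction z using Finsupp.induction_linear with
  | zero => simp
  | add z z' h1 h2 => simp [Finsupp.mapDomain_add, h1, h2, Finset.sum_add_distrib]
  | single a n => simp [Finsupp.mapDomain_single, Finsupp.single_apply, hT]

theorem curveIn (h : SurfOK S b) : CurveIn h := by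
  intro Ψ h1 h2 h3 Q hQ d a a' γ ha ha' haQ haQ'
  obtain ⟨C, c0, hK⟩ := exists_crv hQ
  choose ctr hctr using exists_cen h C c0
  have gξ := crv_good h C
  have na : aeval C.ξ a ≠ 0 := fun h0 => haQ ((hK d a ha).1 h0)
  have na' : aeval C.ξ a' ≠ 0 := fun h0 => haQ' ((hK d a' ha').1 h0)
  refine ⟨C, ctr, aeval C.ξ a / aeval C.ξ a', hctr, div_ne_zero na na', ?_⟩
  ext P
  rw [Finsupp.sub_apply]
  by_cases hP : ∃ x ∈ S.pts, P = lineI x ∧ Q ≤ lineI x
  · obtain ⟨x, hx, rfl, hle⟩ := hP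
    have gx := h.good hx
    let c : CD b C.K := ⟨C.ξ, x, gξ, gx,
      fun e s hs h0 => (gx.hmg_mem_lineI hs).1 (hle ((hK e s hs).1 h0)), h.ne_zero hx⟩
    obtain ⟨n, rfl⟩ := gξ.deg ha na
    obtain ⟨s, hs, sx⟩ := c.exists_den n
    have r1 := CD.rep_div (c := c) ha hs sx
    have r2 := CD.rep_div (c := c) ha' hs sx
    obtain ⟨V, hV⟩ := crv_fin C
    have hess := c.essFT V hV C.gen
    have hne : c.O ≠ ⊤ := by
      obtain ⟨e, u, hu, hux, huQ⟩ := gx.lineI_HS.exists_H (N := Q) fun h0 =>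
        hQ.2.2 (le_antisymm hle h0 ▸ isPt_lineI h hx)
      exact CD.O_ne_top (c := c) (H_iff.1 hu) (fun h0 => huQ ((hK e u (H_iff.1 hu)).1 h0))
        ((gx.hmg_mem_lineI (H_iff.1 hu)).1 hux)
    have n1 : aeval C.ξ a / aeval C.ξ s ≠ 0 := div_ne_zero na r1.ne
    have n2 : aeval C.ξ a' / aeval C.ξ s ≠ 0 := div_ne_zero na' r1.ne
    obtain ⟨hfin, e1⟩ := lenK c.O hess hne ⟨_, r1.mem⟩ n1
    obtain ⟨_, e2⟩ := lenK c.O hess hne ⟨_, r2.mem⟩ n2
    have e3 := ord_eq h1 h2 h3 hQ c hx hK (α := ⟨_, r1.mem⟩) r1 haQ γ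
    have e4 := ord_eq h1 h2 h3 hQ c hx hK (α := ⟨_, r2.mem⟩) r2 haQ' γ
    have e5 : aeval C.ξ a / aeval C.ξ a' =
        (aeval C.ξ a / aeval C.ξ s) * (aeval C.ξ a' / aeval C.ξ s)⁻¹ := by
      have : aeval C.ξ s ≠ 0 := r1.ne
      field_simp
    rw [mapDomain_apply_eq _ hfin.toFinset _ fun Q' => ?_, e5, divf_mul n1 (inv_ne_zero n2),
      divf_inv n2]
    · refine (congrArg₂ (· - ·) (e3.trans e1) (e4.trans e2)).trans ?_
      rw [← Finset.sum_sub_distrib]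
      refine Finset.sum_congr rfl fun Q' _ => ?_
      rw [Finsupp.add_apply, Finsupp.neg_apply, sub_eq_add_neg]
    · rw [Set.Finite.mem_toFinset]
      obtain ⟨hy, t, ht⟩ := hctr Q'
      exact ⟨fun hd => lineI_eq_of_le h hx hy (CD.le_of_dom (c := c) (h.good hy) ht hd),
        fun e => CD.dom_of_eq (c := c) (h.good hy) ht e⟩
  · have key : ∀ u, Hmg d u → u ∉ Q → Ψ (adj Q u) γ P = 0 := fun u hu huQ => by
      by_contra h0
      obtain ⟨p1, p2⟩ := supp_cyc h1 h2 h3 P _ (hQ.adj_mem (ctx_dim h) (H_iff.2 hu) huQ) γ h0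
      obtain ⟨x, hx, rfl⟩ := (isPt_iff h).1 p1
      exact hP ⟨x, hx, rfl, (le_adj Q u).trans p2⟩
    rw [key a ha haQ, key a' ha' haQ', mapDomain_apply_eq _ ∅ _ fun Q' => ?_]
    · simp
    · obtain ⟨hy, t, ht⟩ := hctr Q'
      refine ⟨fun h0 => by simp at h0, fun e => (hP ⟨_, hy, e.symm, ?_⟩).elim⟩
      exact (h.good hy).le_lineI hQ.1.1.1 (hQ.1.1.1.le_of_H fun e u hu huQ =>
        eval_eq_zero_of_near gξ ht (H_iff.1 hu) ((hK e u (H_iff.1 hu)).2 huQ))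

/-- **PSI** -/
theorem psi_of_surfOK (h : SurfOK S b) : PsiStmt S b := psi_of_curveIn h (curveIn h)

end Crest.Agent.N265.Psi
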