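import Crest.Agent.N265.Psi.Loc
import Crest.Agent.R270.Crv4_110

/-!
# Row 265, PSI part 8 (helper25): centres of places

`exists_cen` : every place of a curve on `S` has a centre; `CD.dom_iff` : a place dominates the local
ring at `x` iff its centre is `x`; `CD.essFT` : the local ring is essentially of finite type.
-/

set_option autoImplicit false
set_option linter.unusedSectionVars false
noncomputable section
open MvPolynomial

namespace Crest.Agent.N265.Psi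

open Crest.Agent.N265.Jac Crest.Agent.R013.RR7_948 Crest.Agent.R013.RR11_948
  Crest.Agent.R270.Crv_110

section Val

variable {K : Type} [Field K] [Algebra ℂ K] {P : Pl ℂ K}

theorem v_const_le (P : Pl ℂ K) (c : ℂ) : P.v (algebraMap ℂ K c) ≤ 1 := by
  by_cases h : c = 0
  · simp [h]
  · exact (P.const c h).le

theorem v_le_of_near {f : K} {c : ℂ} (h : P.v (f - algebraMap ℂ K c) < 1) : P.v f ≤ 1 := by
  rw [← sub_add_cancel f (algebraMap ℂ K c)]
  exact P.v.map_add_le h.le (v_const_le P c)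

theorem v_eq_of_near {f : K} {c : ℂ} (h : P.v (f - algebraMap ℂ K c) < 1) (hc : c ≠ 0) :
    P.v f = 1 := by
  rw [← P.const c hc] at h ⊢
  exact P.v.map_eq_of_sub_lt h

theorem near_aeval {η : Var → K} {y : Pt} (h : ∀ v, P.v (η v - algebraMap ℂ K (y v)) < 1) (r : R) :
    P.v (aeval η r - algebraMap ℂ K (eval y r)) < 1 := by
  induction r using MvPolynomial.induction_on with
  | C c => simp
  | add p q hp hq =>
    rw [map_add, map_add, map_add, add_sub_add_comm]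
    exact P.v.map_add_lt hp hq
  | mul_X p v hp =>
    have e : aeval η (p * X v) - algebraMap ℂ K (eval y (p * X v)) =
        (aeval η p - algebraMap ℂ K (eval y p)) * η v +
          algebraMap ℂ K (eval y p) * (η v - algebraMap ℂ K (y v)) := by
      simp only [map_mul, aeval_X, eval_X]
      ring
    rw [e]
    refine P.v.map_add_lt ?_ ?_
    · rw [map_mul]
      exact mul_lt_one_of_lt_of_le hp (v_le_of_near (h v))
    · rw [map_mul, mul_comm]
      exact mul_lt_one_of_lt_of_le (h v) (v_const_le P _)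

theorem eval_eq_zero_of_near {b : ℕ} {ξ : Var → K} (hξ : Good b ξ) {t : K} {y : Pt}
    (h : ∀ v, P.v (t * ξ v - algebraMap ℂ K (y v)) < 1) {d : D} {a : R} (ha : Hmg d a)
    (h0 : aeval ξ a = 0) : eval y a = 0 := by
  by_contra h1
  have h2 := v_eq_of_near (near_aeval (η := t • ξ) h a) h1
  rw [hξ.scale_eq_zero ha h0, map_zero] at h2
  exact zero_ne_one h2

theorem fg_range {η : Var → K} (V : Finset Var) (h : ∀ v ∉ V, η v = 0) :
    (aeval η : R →ₐ[ℂ] K).range.FG := by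
  rw [← Algebra.adjoin_range_eq_range_aeval, Subalgebra.fg_def]
  refine ⟨_, ((V.finite_toSet.image η).insert 0).subset ?_, rfl⟩
  rintro _ ⟨v, rfl⟩
  by_cases hv : v ∈ V
  · exact Or.inr ⟨v, hv, rfl⟩
  · exact Or.inl (h v hv)

theorem Good.cross_scale {b : ℕ} {ξ : Var → K} (hξ : Good b ξ) {f : K} {d : D} {a s : R}
    (ha : Hmg d a) (hs : Hmg d s) (h0 : aeval ξ s ≠ 0) (e : f * aeval ξ s = aeval ξ a) (t : K) :
    f * aeval (t • ξ) s = aeval (t • ξ) a := by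
  obtain ⟨n, rfl⟩ := hξ.deg hs h0
  rw [hξ.scale ha, hξ.scale hs, ← e]
  ring

namespace CD

variable {b : ℕ} {c : CD b K}

theorem Rep.smul_eq {f : K} {d : D} {a s : R} (h : c.Rep f d a s) (t : K) :
    f * aeval (t • c.ξ) s = aeval (t • c.ξ) a := c.gξ.cross_scale h.ha h.hs h.ne h.eq t

theorem dom_of_eq {t : K} {y : Pt} (hy : Good b y)
    (h : ∀ v, P.v (t * c.ξ v - algebraMap ℂ K (y v)) < 1) (e : lineI y = lineI c.x) :
    Dom c.O P := by
  rintro f ⟨d, a, s, hr⟩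
  have h1 : eval y s ≠ 0 := fun h0 =>
    hr.sx ((c.gx.hmg_mem_lineI hr.hs).1 (e ▸ (hy.hmg_mem_lineI hr.hs).2 h0))
  have h2 := congrArg P.v (hr.smul_eq t)
  rw [map_mul, v_eq_of_near (near_aeval (η := t • c.ξ) h s) h1, mul_one] at h2
  have h3 := near_aeval (η := t • c.ξ) h a
  refine ⟨h2 ▸ v_le_of_near h3, fun _ hf => ?_⟩
  have h4 : eval c.x a = 0 := by
    by_contra h5
    exact hf (hr.inv h5).2.mem
  have h5 : eval y a = 0 := (hy.hmg_mem_lineI hr.ha).1 (e ▸ (c.gx.hmg_mem_lineI hr.ha).2 h4)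
  rwa [h5, map_zero, sub_zero, ← h2] at h3

theorem le_of_dom {t : K} {y : Pt} (hy : Good b y)
    (h : ∀ v, P.v (t * c.ξ v - algebraMap ℂ K (y v)) < 1) (hd : Dom c.O P) :
    lineI c.x ≤ lineI y := by
  refine c.gx.lineI_HS.le_of_H fun d a ha hax => ?_
  rw [H_iff] at ha
  rw [hy.hmg_mem_lineI ha]
  by_contra h1
  have h2 := v_eq_of_near (near_aeval (η := t • c.ξ) h a) h1
  have h3 : aeval (t • c.ξ) a ≠ 0 := fun h0 => by
    rw [h0, map_zero] at h2
    exact zero_ne_one h2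
  obtain ⟨n, rfl⟩ := (c.gξ.smul t).deg ha h3
  obtain ⟨s, hs, sx⟩ := c.exists_den n
  have hr := rep_div (c := c) ha hs sx
  have h4 := hr.smul_eq t
  have h5 : aeval c.ξ a / aeval c.ξ s ≠ 0 := fun h0 => h3 (by rw [← h4, h0, zero_mul])
  have h6 := (hd _ hr.mem).2 h5 (by
    rintro ⟨d', a', s', h'⟩
    exact hr.ne_of_inv h5 h' ((c.gx.hmg_mem_lineI ha).1 hax))
  rw [← h4, map_mul] at h2
  exact (mul_lt_one_of_lt_of_le h6 (v_le_of_near (near_aeval (η := t • c.ξ) h s))).ne h2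

theorem essFT (V : Finset Var) (hV : ∀ v ∉ V, c.ξ v = 0)
    (gen : ∀ f : K, ∃ (d : D) (a s : R), Hmg d a ∧ Hmg d s ∧ aeval c.ξ s ≠ 0 ∧
      f * aeval c.ξ s = aeval c.ξ a) :
    ∃ A : Subalgebra ℂ K, A.FG ∧ IsFractionRing A K ∧ A ≤ c.O ∧
      ∀ f ∈ c.O, ∃ s ∈ A, s ≠ 0 ∧ s⁻¹ ∈ c.O ∧ f * s ∈ A := by
  obtain ⟨w, hw⟩ := Function.ne_iff.1 c.x0
  have hw' : c.x w ≠ 0 := hw
  have gw := c.gx w hw'
  have hξ : c.ξ w ≠ 0 := fun h0 => hw' (by simpa using c.sp _ _ (hmg_X w) (by simpa using h0))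
  have key : ∀ (n : ℕ) (s : R), Hmg (n • eB b) s →
      c.Rep (aeval ((c.ξ w)⁻¹ • c.ξ) s) (n • eB b) s (X w ^ n) := fun n s hs =>
    ⟨hs, hmg_Xpow gw n, by rw [map_pow, eval_X]; exact pow_ne_zero n hw', by
      rw [c.gξ.scale hs, map_pow, aeval_X, inv_pow]
      field_simp⟩
  have hne : ∀ d s, Hmg d s → aeval c.ξ s ≠ 0 → aeval ((c.ξ w)⁻¹ • c.ξ) s ≠ 0 := by
    intro d s hs h0 h1
    have := (c.gξ.smul _).scale_eq_zero hs h1 (c.ξ w)
    rw [smul_smul, mul_inv_cancel₀ hξ, one_smul] at this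
    exact h0 this
  refine ⟨(aeval ((c.ξ w)⁻¹ • c.ξ) : R →ₐ[ℂ] K).range, fg_range V fun v hv => by simp [hV v hv],
    IsFractionRing.of_field _ _ fun f => ?_, ?_, ?_⟩
  · obtain ⟨d, a, s, ha, hs, h0, e⟩ := gen f
    refine ⟨⟨_, a, rfl⟩, ⟨_, s, rfl⟩, ?_⟩
    exact (eq_div_iff (hne d s hs h0)).2 (c.gξ.cross_scale ha hs h0 e _)
  · rw [← Algebra.adjoin_range_eq_range_aeval, Algebra.adjoin_le_iff]
    rintro _ ⟨v, rfl⟩
    by_cases hv : c.ξ v = 0
    · simp [hv]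
    · have := key 1 (X v) (by simpa using hmg_Xpow (c.gξ v hv) 1)
      rw [aeval_X] at this
      exact this.mem
  · rintro f ⟨d, a, s, hr⟩
    obtain ⟨n, rfl⟩ := c.gξ.deg hr.hs hr.ne
    exact ⟨_, ⟨s, rfl⟩, hne _ s hr.hs hr.ne, ((key n s hr.hs).inv hr.sx).2.mem,
      ⟨a, (hr.smul_eq _).symm⟩⟩

theorem O_ne_top {d : D} {a : R} (ha : Hmg d a) (h0 : aeval c.ξ a ≠ 0) (h1 : eval c.x a = 0) :
    c.O ≠ ⊤ := by
  intro h
  obtain ⟨n, rfl⟩ := c.gξ.deg ha h0
  obtain ⟨s, hs, sx⟩ := c.exists_den n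
  have hr := rep_div (c := c) ha hs sx
  obtain ⟨d', a', s', h'⟩ : (aeval c.ξ a / aeval c.ξ s)⁻¹ ∈ c.O := h ▸ Algebra.mem_top
  exact hr.ne_of_inv (div_ne_zero h0 hr.ne) h' h1

end CD

end Val

variable {b : ℕ} {S : Spc}

theorem crv_good (h : SurfOK S b) (C : Crv S) : Good b C.ξ := fun v hv =>
  h.good_var fun h0 => hv (by simpa using C.hI _ h0)

theorem crv_fin (C : Crv S) : ∃ V : Finset Var, ∀ v ∉ V, C.ξ v = 0 := by
  obtain ⟨V, hV⟩ := finJ_I S
  exact ⟨V, fun v hv => by simpa using C.hI _ (hV v hv)⟩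

/-- every place has a centre -/
theorem exists_cen (h : SurfOK S b) (C : Crv S) (h0 : C.ξ ≠ 0) (P : Pl ℂ C.K) :
    ∃ x, C.Cen P x := by
  obtain ⟨V, hV⟩ := crv_fin C
  obtain ⟨v₁, hv₁⟩ := Function.ne_iff.1 h0
  have hv₁' : C.ξ v₁ ≠ 0 := hv₁
  have h1 : v₁ ∈ V := by
    by_contra h2
    exact hv₁' (hV v₁ h2)
  obtain ⟨w, -, hw⟩ := V.exists_max_image (fun v => P.v (C.ξ v)) ⟨v₁, h1⟩
  have h2 : C.ξ w ≠ 0 := fun h3 => by
    have := hw v₁ h1
    simp only [h3, map_zero, le_zero_iff, map_eq_zero] at this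
    exact hv₁' this
  have h3 : ∀ v, P.v ((C.ξ w)⁻¹ * C.ξ v) ≤ 1 := fun v => by
    by_cases hv : v ∈ V
    · rw [map_mul, map_inv₀]
      exact inv_mul_le_one_of_le₀ (hw v hv) zero_le
    · simp [hV v hv]
  choose y hy using fun v => Crest.Agent.R013.CE1_280.exists_residue P (h3 v)
  refine ⟨y, S.closed y (h.rel_iff.2 ⟨w, (crv_good h C w h2).1, fun h4 => ?_⟩) fun r hr => ?_,
    _, hy⟩
  · have := hy w
    rw [h4, inv_mul_cancel₀ h2] at this
    simp at this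
  · exact ((I_HS S).le_of_H fun d a ha haI =>
      eval_eq_zero_of_near (crv_good h C) hy (H_iff.1 ha) (C.hI a haI) : S.I ≤ mx y) hr

end Crest.Agent.N265.Psi
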