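import Mathlib

/-!
# Row 265, PSI part 1 (helper25): cyclically additive functions on homogeneous ideals

A grading is given by projections (`Gr`).  A function `Ψ J γ` (think: the class of the cyclic
graded module `(R/J)(-γ)`) is *cyclically additive* on a family `U` of homogeneous ideals if
`Ψ J γ = Ψ (J + a) γ + Ψ (J : a) (γ + deg a)` for all homogeneous `a`.

* `transfer` : `Ψ X - Ψ X₁` only depends on the graded module `X₁ / X`;
* `extend` : extension from `U` to a bigger family `U'` from values on the new primes;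
* `induction` : noetherian induction along `J ↦ (J + a, J : a)`.
-/

set_option autoImplicit false
set_option linter.unusedSectionVars false

namespace Crest.Agent.N265.Psi

/-- a grading given by its projections -/
structure Gr (Γ : Type*) (M : Type*) [AddCommGroup M] where
  p : Γ → M →+ M
  sum : ∀ m, ∃ s : Finset Γ, ∑ i ∈ s, p i m = m
  idem : ∀ i m, p i (p i m) = p i m

section Basic

variable {Γ : Type*} [AddCommGroup Γ] {R : Type*} [CommRing R]
  {M : Type*} [AddCommGroup M] [Module R M]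

/-- homogeneous of degree `i` -/
def Gr.H (g : Gr Γ M) (i : Γ) (m : M) : Prop := g.p i m = m

/-- homogeneous submodule -/
def Gr.HS (g : Gr Γ M) (N : Submodule R M) : Prop := ∀ i, ∀ m ∈ N, g.p i m ∈ N

/-- compatibility of the gradings of the ring and of the module -/
def Compat (A : Gr Γ R) (g : Gr Γ M) : Prop :=
  ∀ i j (r : R) (m : M), g.H j m → g.p (i + j) (r • m) = A.p i r • m

/-- `(N : m)` -/
def col (N : Submodule R M) (m : M) : Ideal R := N.comap (LinearMap.toSpanSingleton R M m)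

@[simp] theorem mem_col {N : Submodule R M} {m : M} {r : R} : r ∈ col N m ↔ r • m ∈ N := by
  simp [col]

/-- `N + R m` -/
def adj (N : Submodule R M) (m : M) : Submodule R M := N ⊔ Submodule.span R {m}

theorem mem_adj {N : Submodule R M} {m x : M} : x ∈ adj N m ↔ ∃ r : R, x - r • m ∈ N := by
  unfold adj
  rw [Submodule.mem_sup]
  constructor
  · rintro ⟨y, hy, z, hz, rfl⟩
    obtain ⟨r, rfl⟩ := Submodule.mem_span_singleton.1 hz
    exact ⟨r, by simpa using hy⟩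
  · rintro ⟨r, hr⟩
    exact ⟨x - r • m, hr, r • m, Submodule.mem_span_singleton.2 ⟨r, rfl⟩, by abel⟩

theorem le_adj (N : Submodule R M) (m : M) : N ≤ adj N m := le_sup_left

theorem self_mem_adj (N : Submodule R M) (m : M) : m ∈ adj N m := mem_adj.2 ⟨1, by simp⟩

theorem adj_le {N N' : Submodule R M} {m : M} (h : N ≤ N') (hm : m ∈ N') : adj N m ≤ N' :=
  sup_le h ((Submodule.span_singleton_le_iff_mem _ _).2 hm)

theorem adj_of_mem {N : Submodule R M} {m : M} (hm : m ∈ N) : adj N m = N :=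
  le_antisymm (adj_le le_rfl hm) (le_adj N m)

theorem lt_adj {N : Submodule R M} {m : M} (hm : m ∉ N) : N < adj N m :=
  lt_of_le_of_ne (le_adj N m) fun h => hm (h ▸ self_mem_adj N m)

theorem adj_comm (N : Submodule R M) (m m' : M) : adj (adj N m) m' = adj (adj N m') m := by
  unfold adj
  exact sup_right_comm _ _ _

theorem adj_mono {N N' : Submodule R M} (h : N ≤ N') (m : M) : adj N m ≤ adj N' m :=
  sup_le_sup_right h _

theorem col_of_mem {N : Submodule R M} {m : M} (hm : m ∈ N) : col N m = ⊤ :=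
  eq_top_iff.2 fun r _ => mem_col.2 (N.smul_mem r hm)

theorem col_mono {N N' : Submodule R M} (h : N ≤ N') (m : M) : col N m ≤ col N' m :=
  fun _ hr => mem_col.2 (h (mem_col.1 hr))

theorem le_col (J : Ideal R) (a : R) : J ≤ col J a :=
  fun r hr => mem_col.2 (by rw [smul_eq_mul]; exact J.mul_mem_right a hr)

theorem col_col (J : Ideal R) (a b : R) : col (col J a) b = col J (b * a) := by
  ext r
  simp [mul_assoc]

theorem Gr.H_p (g : Gr Γ M) (i : Γ) (m : M) : g.H i (g.p i m) := g.idem i m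

theorem Gr.HS.mem_of_p {g : Gr Γ M} {N : Submodule R M} {m : M} (h : ∀ i, g.p i m ∈ N) :
    m ∈ N := by
  obtain ⟨s, hs⟩ := g.sum m
  rw [← hs]
  exact N.sum_mem fun i _ => h i

theorem Gr.HS.exists_H {g : Gr Γ M} {N N' : Submodule R M} (hN' : g.HS N') (h : ¬ N' ≤ N) :
    ∃ i m, g.H i m ∧ m ∈ N' ∧ m ∉ N := by
  by_contra hc
  push Not at hc
  exact h fun m hm => Gr.HS.mem_of_p (g := g) fun i => hc i _ (g.H_p i m) (hN' i m hm)

theorem Gr.HS.le_of_H {g : Gr Γ M} {N N' : Submodule R M} (hN' : g.HS N')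
    (h : ∀ i m, g.H i m → m ∈ N' → m ∈ N) : N' ≤ N :=
  fun m hm => Gr.HS.mem_of_p (g := g) fun i => h i _ (g.H_p i m) (hN' i m hm)

theorem Gr.HS_top (g : Gr Γ M) : g.HS (⊤ : Submodule R M) := fun _ _ _ => trivial

theorem Gr.HS_bot (g : Gr Γ M) : g.HS (⊥ : Submodule R M) := fun i m hm => by
  rw [Submodule.mem_bot] at hm ⊢
  rw [hm, map_zero]

variable {A : Gr Γ R} {g : Gr Γ M}

theorem Compat.p_smul (h : Compat A g) {j : Γ} {m : M} (hm : g.H j m) (k : Γ) (r : R) :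
    g.p k (r • m) = A.p (k - j) r • m := by
  rw [← h (k - j) j r m hm, sub_add_cancel]

theorem Compat.H_smul (h : Compat A g) {i j : Γ} {r : R} {m : M} (hr : A.H i r) (hm : g.H j m) :
    g.H (i + j) (r • m) := by
  unfold Gr.H
  rw [h i j r m hm, hr]

theorem Compat.HS_adj (h : Compat A g) {N : Submodule R M} (hN : g.HS N) {j : Γ} {m : M}
    (hm : g.H j m) : g.HS (adj N m) := by
  intro k x hx
  obtain ⟨r, hr⟩ := mem_adj.1 hx
  refine mem_adj.2 ⟨A.p (k - j) r, ?_⟩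
  rw [← h.p_smul hm, ← map_sub]
  exact hN k _ hr

theorem Compat.HS_col (h : Compat A g) {N : Submodule R M} (hN : g.HS N) {j : Γ} {m : M}
    (hm : g.H j m) : A.HS (col N m) := by
  intro i r hr
  rw [mem_col] at hr ⊢
  rw [← h i j r m hm]
  exact hN _ _ hr

/-- a graded relation between two homogeneous elements can be solved homogeneously -/
theorem Compat.partner (h : Compat A g) {N : Submodule R M} (hN : g.HS N) {j j' : Γ} {m m' : M}
    (hm : g.H j m) (hm' : g.H j' m') {i : Γ} {x y : R} (hx : A.H i x)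
    (hxy : x • m - y • m' ∈ N) :
    A.H (i + (j - j')) (A.p (i + (j - j')) y) ∧ x • m - A.p (i + (j - j')) y • m' ∈ N := by
  refine ⟨A.H_p _ _, ?_⟩
  have h1 := hN (i + j) _ hxy
  rw [map_sub, h i j x m hm, hx, h.p_smul hm', add_sub_assoc] at h1
  exact h1

end Basic

section Ring

variable {Γ : Type*} [AddCommGroup Γ] {R : Type*} [CommRing R] {G : Type*} [AddCommGroup G]

/-- a graded ring -/
structure GrR (Γ : Type*) [AddCommGroup Γ] (R : Type*) [CommRing R] extends Gr Γ R where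
  compat : Compat toGr toGr
  one : toGr.H 0 1

variable (A : GrR Γ R)

theorem GrR.H_mul {i j : Γ} {a b : R} (ha : A.H i a) (hb : A.H j b) : A.H (i + j) (a * b) :=
  A.compat.H_smul ha hb

theorem GrR.H_pow {i : Γ} {a : R} (ha : A.H i a) (n : ℕ) : A.H (n • i) (a ^ n) := by
  induction n with
  | zero => simpa using A.one
  | succ n ih =>
    rw [pow_succ, succ_nsmul]
    exact A.H_mul ih ha

/-- homogeneously prime -/
def HPr (P : Ideal R) : Prop :=
  P ≠ ⊤ ∧ ∀ i j a b, A.H i a → A.H j b → a * b ∈ P → a ∈ P ∨ b ∈ P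

variable {A}

theorem HPr.col_eq {P : Ideal R} (hP : HPr A P) (hh : A.HS P) {d : Γ} {a : R} (ha : A.H d a)
    (haP : a ∉ P) : col P a = P := by
  refine le_antisymm ?_ (le_col P a)
  refine (A.compat.HS_col hh ha).le_of_H fun i r hr hra => ?_
  rw [mem_col, smul_eq_mul] at hra
  exact (hP.2 i d r a hr ha hra).resolve_right haP

theorem HPr.one_notMem {P : Ideal R} (hP : HPr A P) : (1 : R) ∉ P :=
  fun h => hP.1 ((Ideal.eq_top_iff_one P).2 h)

theorem HPr.mul_notMem {P : Ideal R} (hP : HPr A P) {i j : Γ} {a b : R} (ha : A.H i a)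
    (hb : A.H j b) (ha' : a ∉ P) (hb' : b ∉ P) : a * b ∉ P :=
  fun h => (hP.2 i j a b ha hb h).elim ha' hb'

theorem HPr.pow_notMem {P : Ideal R} (hP : HPr A P) {i : Γ} {a : R} (ha : A.H i a)
    (ha' : a ∉ P) (n : ℕ) : a ^ n ∉ P := by
  induction n with
  | zero => simpa using hP.one_notMem
  | succ n ih =>
    rw [pow_succ]
    exact hP.mul_notMem (A.H_pow ha n) ha ih ha'

theorem HPr.of_isPrime {P : Ideal R} (hP : P.IsPrime) : HPr A P :=
  ⟨hP.ne_top, fun _ _ _ _ _ _ h => hP.mem_or_mem h⟩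

variable (A)

/-- an upward closed family of homogeneous ideals on which `>` is well founded -/
structure Fam (U : Set (Ideal R)) : Prop where
  hom : ∀ J ∈ U, A.HS J
  up : ∀ J ∈ U, ∀ J', A.HS J' → J ≤ J' → J' ∈ U
  top : ⊤ ∈ U
  wf : WellFounded fun X Y : Ideal R => Y ∈ U ∧ Y < X

/-- additivity at one ideal -/
def AddAt (Ψ : Ideal R → Γ → G) (J : Ideal R) : Prop :=
  ∀ d a γ, A.H d a → Ψ J γ = Ψ (adj J a) γ + Ψ (col J a) (γ + d)

/-- cyclic additivity on a family -/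
def CycAdd (U : Set (Ideal R)) (Ψ : Ideal R → Γ → G) : Prop := ∀ J ∈ U, AddAt A Ψ J

variable {A}

theorem Fam.adj_mem {U : Set (Ideal R)} (hU : Fam A U) {J : Ideal R} (hJ : J ∈ U) {d : Γ} {a : R}
    (ha : A.H d a) : adj J a ∈ U :=
  hU.up J hJ _ (A.compat.HS_adj (hU.hom J hJ) ha) (le_adj J a)

theorem Fam.col_mem {U : Set (Ideal R)} (hU : Fam A U) {J : Ideal R} (hJ : J ∈ U) {d : Γ} {a : R}
    (ha : A.H d a) : col J a ∈ U :=
  hU.up J hJ _ (A.compat.HS_col (hU.hom J hJ) ha) (le_col J a)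

theorem AddAt.top_eq_zero {Ψ : Ideal R → Γ → G} (h : AddAt A Ψ ⊤) (γ : Γ) : Ψ ⊤ γ = 0 := by
  have h1 := h 0 1 γ A.one
  rw [adj_of_mem Submodule.mem_top, col_of_mem Submodule.mem_top, add_zero] at h1
  exact left_eq_add.1 h1

/-- `Ψ X - Ψ X₁` only depends on the graded module `X₁ / X`. -/
theorem transfer {U : Set (Ideal R)} (hU : Fam A U) {Ψ : Ideal R → Γ → G}
    (W : Submodule R (R × R)) (δ γ : Γ) (X₁ Y₁ : Ideal R) (hX₁ : A.HS X₁)
    (hW₁ : ∀ x y, (x, y) ∈ W → x ∈ X₁ ∧ y ∈ Y₁)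
    (hWx : ∀ i x, A.H i x → x ∈ X₁ → ∃ y, A.H (i + δ) y ∧ (x, y) ∈ W)
    (hWy : ∀ y ∈ Y₁, ∃ x, (x, y) ∈ W)
    (X : Ideal R) (hX : X ∈ U) (Y : Ideal R) (hY : Y ∈ U) (hXX : X ≤ X₁) (hYY : Y ≤ Y₁)
    (hXY : ∀ x y, (x, y) ∈ W → (x ∈ X ↔ y ∈ Y))
    (haX : ∀ J ∈ U, X ≤ J → AddAt A Ψ J) (haY : ∀ J ∈ U, Y ≤ J → AddAt A Ψ J) :
    Ψ X (γ + δ) - Ψ X₁ (γ + δ) = Ψ Y γ - Ψ Y₁ γ := by
  induction X using hU.wf.induction generalizing Y with
  | _ X ih =>
    by_cases hle : X₁ ≤ X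
    · have e1 : X = X₁ := le_antisymm hXX hle
      have e2 : Y = Y₁ := by
        refine le_antisymm hYY fun y hy => ?_
        obtain ⟨x, hx⟩ := hWy y hy
        exact (hXY x y hx).1 (hle (hW₁ x y hx).1)
      rw [e1, e2, sub_self, sub_self]
    · obtain ⟨i, x, hx, hx1, hxX⟩ := hX₁.exists_H hle
      obtain ⟨y, hy, hxy⟩ := hWx i x hx hx1
      have hc : col X x = col Y y := by
        ext r
        rw [mem_col, mem_col]
        exact hXY _ _ (W.smul_mem r hxy)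
      have h1 := ih (adj X x) ⟨hX, lt_adj hxX⟩ (hU.adj_mem hX hx) (adj Y y) (hU.adj_mem hY hy)
        (adj_le hXX hx1) (adj_le hYY (hW₁ x y hxy).2) (fun x' y' h' => by
          rw [mem_adj, mem_adj]
          exact exists_congr fun r => hXY _ _ (W.sub_mem h' (W.smul_mem r hxy)))
        (fun J hJ h => haX J hJ ((le_adj X x).trans h))
        (fun J hJ h => haY J hJ ((le_adj Y y).trans h))
      rw [haX X hX le_rfl i x (γ + δ) hx, haY Y hY le_rfl (i + δ) y γ hy, hc,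
        show γ + δ + i = γ + (i + δ) by abel]
      rw [sub_eq_iff_eq_add] at h1
      rw [h1]
      abel

/-- the relation module `{(x, y) | x a - y b ∈ N}` -/
def rel {M : Type*} [AddCommGroup M] [Module R M] (N : Submodule R M) (m m' : M) :
    Submodule R (R × R) :=
  N.comap ((LinearMap.toSpanSingleton R M m).coprod (-LinearMap.toSpanSingleton R M m'))

theorem mem_rel {M : Type*} [AddCommGroup M] [Module R M] {N : Submodule R M} {m m' : M}
    {x y : R} : (x, y) ∈ rel N m m' ↔ x • m - y • m' ∈ N := by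
  simp [rel, sub_eq_add_neg]

/-- the Koszul step: additivity for `a₀` at `J` gives additivity for `a` at `J` -/
theorem koszul_step {U : Set (Ideal R)} (hU : Fam A U) {Ψ : Ideal R → Γ → G} {J : Ideal R}
    (hJ : J ∈ U) (hgt : ∀ J' ∈ U, J < J' → AddAt A Ψ J') {d₀ d : Γ} {a₀ a : R} (ha₀ : A.H d₀ a₀)
    (ha : A.H d a) (h₀ : a₀ ∉ J) (h₁ : J < col J a₀) (haJ : a ∉ J)
    (hdef : ∀ γ, Ψ J γ = Ψ (adj J a₀) γ + Ψ (col J a₀) (γ + d₀)) (γ : Γ) :
    Ψ J γ = Ψ (adj J a) γ + Ψ (col J a) (γ + d) := by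
  have hJh := hU.hom J hJ
  have e1 := hgt _ (hU.adj_mem hJ ha₀) (lt_adj h₀) d a γ ha
  have e2 := hgt _ (hU.col_mem hJ ha₀) h₁ d a (γ + d₀) ha
  have e3 := hgt _ (hU.adj_mem hJ ha) (lt_adj haJ) d₀ a₀ γ ha₀
  have e4 : Ψ (col J a) (γ + d) =
      Ψ (adj (col J a) a₀) (γ + d) + Ψ (col (col J a) a₀) (γ + d + d₀) := by
    rcases (le_col J a).eq_or_lt with h | h
    · rw [← h]
      exact hdef _
    · exact hgt _ (hU.col_mem hJ ha) h d₀ a₀ _ ha₀
  have e5 := transfer hU (Ψ := Ψ) (rel J a a₀) (d - d₀) (γ + d₀) (col (adj J a₀) a)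
    (col (adj J a) a₀) (A.compat.HS_col (A.compat.HS_adj hJh ha₀) ha)
    (fun x y h => by
      rw [mem_rel] at h
      refine ⟨mem_col.2 (mem_adj.2 ⟨y, h⟩), mem_col.2 (mem_adj.2 ⟨x, ?_⟩)⟩
      have := J.neg_mem h
      rwa [neg_sub] at this)
    (fun i x hx h => by
      obtain ⟨y, hy⟩ := mem_adj.1 (mem_col.1 h)
      obtain ⟨h1, h2⟩ := A.compat.partner hJh ha ha₀ hx hy
      exact ⟨_, h1, mem_rel.2 h2⟩)
    (fun y h => by
      obtain ⟨x, hx⟩ := mem_adj.1 (mem_col.1 h)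
      refine ⟨x, mem_rel.2 ?_⟩
      have := J.neg_mem hx
      rwa [neg_sub] at this)
    (adj (col J a) a₀) (hU.adj_mem (hU.col_mem hJ ha) ha₀)
    (adj (col J a₀) a) (hU.adj_mem (hU.col_mem hJ ha₀) ha)
    (adj_le (col_mono (le_adj J a₀) a) (mem_col.2 (mem_adj.2 ⟨a, by simp [mul_comm]⟩)))
    (adj_le (col_mono (le_adj J a) a₀) (mem_col.2 (mem_adj.2 ⟨a₀, by simp [mul_comm]⟩)))
    (fun x y h => by
      rw [mem_rel] at h
      rw [mem_adj, mem_adj]
      refine exists_congr fun r => ?_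
      rw [mem_col, mem_col]
      simp only [smul_eq_mul] at h ⊢
      have e : (x - r * a₀) * a = (x * a - y * a₀) + (y - r * a) * a₀ := by ring
      rw [e]
      exact J.add_mem_iff_right h)
    (fun J' hJ' h => hgt J' hJ' (lt_of_lt_of_le (lt_adj h₀) ((adj_mono (le_col J a) a₀).trans h)))
    (fun J' hJ' h => hgt J' hJ' (lt_of_lt_of_le (lt_adj haJ) ((adj_mono (le_col J a₀) a).trans h)))
  rw [show γ + d₀ + (d - d₀) = γ + d by abel] at e5
  rw [hdef, e1, e2, e3, e4, col_col, col_col, adj_comm J a₀ a, mul_comm a a₀,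
    show γ + d₀ + d = γ + d + d₀ by abel]
  rw [sub_eq_iff_eq_add] at e5
  rw [e5]
  abel

/-- a non-prime proper ideal has a homogeneous witness -/
theorem exists_witness {J : Ideal R} (hJ : J ≠ ⊤) (h : ¬ HPr A J) :
    ∃ x : Γ × R, A.H x.1 x.2 ∧ x.2 ∉ J ∧ J < col J x.2 := by
  unfold HPr at h
  push Not at h
  obtain ⟨i, j, a, b, ha, hb, hab, h1, h2⟩ := h hJ
  refine ⟨(i, a), ha, h1, lt_of_le_of_ne (le_col J a) fun e => h2 ?_⟩
  rw [e, mem_col, smul_eq_mul, mul_comm]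
  exact hab

theorem HPr.not_witness {J : Ideal R} (hJ : HPr A J) (hh : A.HS J) :
    ¬ ∃ x : Γ × R, A.H x.1 x.2 ∧ x.2 ∉ J ∧ J < col J x.2 := by
  rintro ⟨x, h1, h2, h3⟩
  exact h3.ne' (hJ.col_eq hh h1 h2)

/-- noetherian induction along `J ↦ (J + a, J : a)` -/
theorem Fam.induction {U : Set (Ideal R)} (hU : Fam A U) {p : Ideal R → Γ → Prop}
    (htop : ∀ γ, p ⊤ γ) (hpr : ∀ P ∈ U, HPr A P → ∀ γ, p P γ)
    (hstep : ∀ J ∈ U, ∀ d a γ, A.H d a → p (adj J a) γ → p (col J a) (γ + d) → p J γ) :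
    ∀ J ∈ U, ∀ γ, p J γ := by
  intro J
  induction J using hU.wf.induction with
  | _ J ih =>
    intro hJ γ
    by_cases ht : J = ⊤
    · rw [ht]
      exact htop γ
    by_cases hp : HPr A J
    · exact hpr J hJ hp γ
    obtain ⟨⟨d, a⟩, ha, h1, h2⟩ := exists_witness ht hp
    exact hstep J hJ d a γ ha (ih _ ⟨hJ, lt_adj h1⟩ (hU.adj_mem hJ ha) _)
      (ih _ ⟨hJ, h2⟩ (hU.col_mem hJ ha) _)

/-- uniqueness: additive functions agreeing on primes agree -/
theorem CycAdd.ext {U : Set (Ideal R)} (hU : Fam A U) {Ψ Ψ' : Ideal R → Γ → G}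
    (h : CycAdd A U Ψ) (h' : CycAdd A U Ψ') (hpr : ∀ P ∈ U, HPr A P → ∀ γ, Ψ P γ = Ψ' P γ) :
    ∀ J ∈ U, ∀ γ, Ψ J γ = Ψ' J γ :=
  hU.induction (fun γ => by rw [(h ⊤ hU.top).top_eq_zero, (h' ⊤ hU.top).top_eq_zero]) hpr
    fun J hJ d a γ ha h1 h2 => by rw [h J hJ d a γ ha, h' J hJ d a γ ha, h1, h2]

open Classical in
/-- the recursive definition used in `extend` -/
noncomputable def ext₀ {U' : Set (Ideal R)} (hU' : Fam A U') (U : Set (Ideal R))
    (Ψ₀ val : Ideal R → Γ → G) : Ideal R → Γ → G :=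
  hU'.wf.fix fun J rec γ =>
    if J ∈ U then Ψ₀ J γ else
      if h : J ∈ U' ∧ ∃ x : Γ × R, A.H x.1 x.2 ∧ x.2 ∉ J ∧ J < col J x.2 then
        rec (adj J h.2.choose.2) ⟨h.1, lt_adj h.2.choose_spec.2.1⟩ γ +
          rec (col J h.2.choose.2) ⟨h.1, h.2.choose_spec.2.2⟩ (γ + h.2.choose.1)
      else val J γ

open Classical in
theorem ext₀_eq {U' : Set (Ideal R)} (hU' : Fam A U') (U : Set (Ideal R))
    (Ψ₀ val : Ideal R → Γ → G) (J : Ideal R) (γ : Γ) :
    ext₀ hU' U Ψ₀ val J γ = if J ∈ U then Ψ₀ J γ else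
      if h : J ∈ U' ∧ ∃ x : Γ × R, A.H x.1 x.2 ∧ x.2 ∉ J ∧ J < col J x.2 then
        ext₀ hU' U Ψ₀ val (adj J h.2.choose.2) γ +
          ext₀ hU' U Ψ₀ val (col J h.2.choose.2) (γ + h.2.choose.1)
      else val J γ := by
  unfold ext₀
  rw [WellFounded.fix_eq]

/-- **Extension theorem.** -/
theorem extend {U U' : Set (Ideal R)} (hU : Fam A U) (hU' : Fam A U')
    {Ψ₀ : Ideal R → Γ → G} (h₀ : CycAdd A U Ψ₀) (val : Ideal R → Γ → G)
    (hnew : ∀ P ∈ U', P ∉ U → HPr A P → ∀ d a, A.H d a → a ∉ P →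
      adj P a ∈ U ∧ ∀ γ, val P γ = Ψ₀ (adj P a) γ + val P (γ + d)) :
    ∃ Ψ : Ideal R → Γ → G, CycAdd A U' Ψ ∧ (∀ J ∈ U, Ψ J = Ψ₀ J) ∧
      ∀ P ∈ U', P ∉ U → HPr A P → Ψ P = val P := by
  have hold : ∀ J ∈ U, ext₀ hU' U Ψ₀ val J = Ψ₀ J := fun J hJ => by
    funext γ
    rw [ext₀_eq, if_pos hJ]
  have hval : ∀ P ∈ U', P ∉ U → HPr A P → ext₀ hU' U Ψ₀ val P = val P := fun P hP hPU hp => by
    funext γ
    rw [ext₀_eq, if_neg hPU, dif_neg fun h => hp.not_witness (hU'.hom P hP) h.2]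
  refine ⟨ext₀ hU' U Ψ₀ val, ?_, hold, hval⟩
  intro J
  induction J using hU'.wf.induction with
  | _ J ih =>
    intro hJ d a γ ha
    by_cases hJU : J ∈ U
    · rw [hold J hJU, hold _ (hU.adj_mem hJU ha), hold _ (hU.col_mem hJU ha)]
      exact h₀ J hJU d a γ ha
    by_cases haJ : a ∈ J
    · rw [adj_of_mem haJ, col_of_mem haJ, hold ⊤ hU.top, (h₀ ⊤ hU.top).top_eq_zero, add_zero]
    by_cases hp : HPr A J
    · obtain ⟨h1, h2⟩ := hnew J hJ hJU hp d a ha haJ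
      rw [hp.col_eq (hU'.hom J hJ) ha haJ, hval J hJ hJU hp, hold _ h1]
      exact h2 γ
    have ht : J ≠ ⊤ := fun e => hJU (e ▸ hU.top)
    have hw : J ∈ U' ∧ ∃ x : Γ × R, A.H x.1 x.2 ∧ x.2 ∉ J ∧ J < col J x.2 :=
      ⟨hJ, exists_witness ht hp⟩
    refine koszul_step hU' hJ (fun J' hJ' h => ih J' ⟨hJ, h⟩ hJ') hw.2.choose_spec.1 ha
      hw.2.choose_spec.2.1 hw.2.choose_spec.2.2 haJ (fun γ' => ?_) γ
    rw [ext₀_eq, if_neg hJU, dif_pos hw]

end Ring

end Crest.Agent.N265.Psi
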