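import Crest.Agent.N265.Core
import Crest.Agent.R013.RR11_948

/-!
# Row 265, rational equivalence of points of a space (helper25)

* `Crv S` : a curve on `S` = function field `K` of one variable with a `K`-point `ξ` of the cone
  whose coordinate ratios generate `K`;
* `Crv.Cen C Q x` : `x ∈ S.pts` is (a representative of) the centre of the place `Q`;
* `RatEq S` : zero-cycles rationally equivalent to zero (representatives of a point are identified);
* `lineI x` : the homogeneous ideal of the point `x`;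
* `SurfOK S b` : what PSI needs to know about the surface (one block, weight zero, irreducible,
  dimension two, normal);
* `PsiStmt S b` : the statement PSI.
-/

set_option autoImplicit false
noncomputable section
open MvPolynomial

namespace Crest.Agent.N265

open Crest.Agent.R013.RR7_948 Crest.Agent.R013.RR11_948

/-- a curve on `S` -/
structure Crv (S : Spc) where
  K : Type
  [fld : Field K]
  [alg : Algebra ℂ K]
  [algR : Algebra (RatFunc ℂ) K]
  [tow : IsScalarTower ℂ (RatFunc ℂ) K]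
  [fd : FiniteDimensional (RatFunc ℂ) K]
  [sep : Algebra.IsSeparable (RatFunc ℂ) K]
  ξ : Var → K
  hI : ∀ r ∈ S.I, aeval ξ r = 0
  gen : ∀ f : K, ∃ (d : D) (a b : R), Hmg d a ∧ Hmg d b ∧ aeval ξ b ≠ 0 ∧
    f * aeval ξ b = aeval ξ a

attribute [instance] Crv.fld Crv.alg Crv.algR Crv.tow Crv.fd Crv.sep

/-- `x` is the centre of the place `Q` -/
def Crv.Cen {S : Spc} (C : Crv S) (Q : Pl ℂ C.K) (x : Pt) : Prop :=
  x ∈ S.pts ∧ ∃ c : C.K, ∀ v, Q.v (c * C.ξ v - algebraMap ℂ C.K (x v)) < 1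

/-- zero-cycles rationally equivalent to zero -/
def RatEq (S : Spc) : AddSubgroup (Pt →₀ ℤ) := AddSubgroup.closure
  ({z | ∃ x ∈ S.pts, ∃ c : ℂ, c ≠ 0 ∧ z = Finsupp.single (c • x) 1 - Finsupp.single x 1} ∪
   {z | ∃ (C : Crv S) (ctr : Pl ℂ C.K → Pt) (f : C.K), (∀ Q, C.Cen Q (ctr Q)) ∧ f ≠ 0 ∧
      z = (divf (k := ℂ) f).mapDomain ctr})

/-- the homogeneous ideal of a point -/
def lineI (x : Pt) : Ideal R where
  carrier := {r | ∀ c : ℂ, c ≠ 0 → eval (c • x) r = 0}
  add_mem' := by intro a b ha hb c hc; simp [ha c hc, hb c hc]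
  zero_mem' := by intro c _; simp
  smul_mem' := by intro s a ha c hc; simp [ha c hc]

theorem mem_lineI {x : Pt} {r : R} : r ∈ lineI x ↔ ∀ c : ℂ, c ≠ 0 → eval (c • x) r = 0 := Iff.rfl

/-- a relevant homogeneous prime of `S` -/
structure RPr (S : Spc) (P : Ideal R) : Prop where
  prime : P.IsPrime
  stab : ∀ r ∈ P, gam r ∈ P
  le : S.I ≤ P
  rel : ∃ v : Var, (X v : R) ∉ P

/-- what PSI needs to know about the surface -/
structure SurfOK (S : Spc) (b : ℕ) : Prop where
  blk : S.B = {b}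
  wt0 : S.TTriv fun _ => 0
  irr : S.Irred
  /-- dimension at most two -/
  dim : ∀ Q P P' : Ideal R, RPr S Q → RPr S P → RPr S P' → S.I < Q → Q < P → ¬ P < P'
  /-- dimension at least one -/
  big : ∀ x ∈ S.pts, S.I < lineI x
  /-- normality: a function is regular everywhere or has a pole along a curve -/
  nrm : ∀ (d : D) (a a' : R), Hmg d a → Hmg d a' → a ∉ S.I → a' ∉ S.I →
    (∀ x ∈ S.pts, ∃ s t : R, eval x s ≠ 0 ∧ s * a - t * a' ∈ S.I) ∨
    ∃ (Q P : Ideal R) (e : D) (r s : R), RPr S Q ∧ RPr S P ∧ Q < P ∧ Hmg e r ∧ Hmg e s ∧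
      r ∈ Q ∧ s ∉ Q ∧ a' * s - a * r ∈ S.I

/-- `M` is the module of the point `x`, generated in degree `γ` -/
def GM.IsPt (M : GM) (x : Pt) (γ : D) : Prop :=
  ∃ m ∈ M.gr γ, Submodule.span R {m} = ⊤ ∧ ∀ r : R, r • m = 0 ↔ r ∈ lineI x

/-- **PSI**: for every weight function there is an additive map out of `G S` that sees the
classes of points modulo rational equivalence. -/
def PsiStmt (S : Spc) (b : ℕ) : Prop :=
  ∃ (A : Type) (_ : AddCommGroup A) (κ : (Pt →₀ ℤ) →+ A), κ.ker ≤ RatEq S ∧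
    ∀ wt : D → ℤ, (∀ γ, wt (γ + eB b) = wt γ) → ∃ ψ : G S →+ A,
      ∀ (M : GM) (x : Pt) (γ : D), x ∈ S.pts → M.On S → M.IsPt x γ →
        ψ (cl S M) = wt γ • κ (Finsupp.single x 1)

end Crest.Agent.N265
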