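import Crest.Agent.N265.Psi.Cyc

/-!
# Row 265, PSI part 2 (helper25): from cyclically additive functions to additive functions

A cyclically additive `Ψ` on a family `U` of homogeneous ideals gives an invariant `psi Ψ g` of
graded modules `(M, g)` generated by finitely many homogeneous elements all of whose
annihilators lie in `U`; it is additive in short exact sequences (`psi_exact`), and on a cyclic
module it is `Ψ (Ann m) (deg m)` (`psi_cyclic`).
-/

set_option autoImplicit false
set_option linter.unusedSectionVars false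

namespace Crest.Agent.N265.Psi

variable {Γ : Type*} [AddCommGroup Γ] {R : Type*} [CommRing R] {G : Type*} [AddCommGroup G]
  {M : Type*} [AddCommGroup M] [Module R M] {M' : Type*} [AddCommGroup M'] [Module R M']
  {M'' : Type*} [AddCommGroup M''] [Module R M'']

/-- `N + R m₁ + ⋯ + R m_r` -/
def adjL (N : Submodule R M) : List (Γ × M) → Submodule R M
  | [] => N
  | x :: l => adjL (adj N x.2) l

/-- the sum over the cyclic quotients of the filtration given by a list -/
def lsum (Ψ : Ideal R → Γ → G) (N : Submodule R M) : List (Γ × M) → G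
  | [] => 0
  | x :: l => Ψ (col N x.2) x.1 + lsum Ψ (adj N x.2) l

/-- a list of homogeneous elements with their degrees -/
def Gr.HL (g : Gr Γ M) (l : List (Γ × M)) : Prop := ∀ x ∈ l, g.H x.1 x.2

theorem le_adjL (N : Submodule R M) (l : List (Γ × M)) : N ≤ adjL N l := by
  induction l generalizing N with
  | nil => exact le_rfl
  | cons x l ih => exact (le_adj N x.2).trans (ih _)

theorem mem_adjL (N : Submodule R M) {l : List (Γ × M)} {x : Γ × M} (hx : x ∈ l) :
    x.2 ∈ adjL N l := by
  induction l generalizing N with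
  | nil => simp at hx
  | cons y l ih =>
    rcases List.mem_cons.1 hx with rfl | h
    · exact le_adjL _ l (self_mem_adj N x.2)
    · exact ih _ h

theorem adjL_le {N N' : Submodule R M} {l : List (Γ × M)} (h : N ≤ N')
    (hl : ∀ x ∈ l, x.2 ∈ N') : adjL N l ≤ N' := by
  induction l generalizing N with
  | nil => exact h
  | cons y l ih =>
    exact ih (adj_le h (hl y List.mem_cons_self)) fun x hx => hl x (List.mem_cons_of_mem _ hx)

theorem adjL_append (N : Submodule R M) (l l' : List (Γ × M)) :
    adjL N (l ++ l') = adjL (adjL N l) l' := by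
  induction l generalizing N with
  | nil => rfl
  | cons x l ih => exact ih _

theorem lsum_append (Ψ : Ideal R → Γ → G) (N : Submodule R M) (l l' : List (Γ × M)) :
    lsum Ψ N (l ++ l') = lsum Ψ N l + lsum Ψ (adjL N l) l' := by
  induction l generalizing N with
  | nil => simp [lsum, adjL]
  | cons x l ih => simp only [List.cons_append, lsum, adjL, ih, add_assoc]

theorem lsum_of_mem {Ψ : Ideal R → Γ → G} (h0 : ∀ γ, Ψ ⊤ γ = 0) {N : Submodule R M}
    {l : List (Γ × M)} (hl : ∀ x ∈ l, x.2 ∈ N) : lsum Ψ N l = 0 := by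
  induction l with
  | nil => rfl
  | cons x l ih =>
    have hx := hl x List.mem_cons_self
    simp only [lsum, col_of_mem hx, adj_of_mem hx, h0, zero_add]
    exact ih fun y hy => hl y (List.mem_cons_of_mem _ hy)

variable {A : GrR Γ R} {U : Set (Ideal R)} {Ψ : Ideal R → Γ → G}

/-- a graded module whose cyclic submodules have annihilators in `U` -/
structure Adm (A : GrR Γ R) (U : Set (Ideal R)) (g : Gr Γ M) : Prop where
  compat : Compat A.toGr g
  ann : ∀ j (m : M), g.H j m → col (⊥ : Submodule R M) m ∈ U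

variable {g : Gr Γ M} {g' : Gr Γ M'} {g'' : Gr Γ M''}

theorem Adm.col_mem (hU : Fam A U) (h : Adm A U g) {N : Submodule R M} (hN : g.HS N) {j : Γ}
    {m : M} (hm : g.H j m) : col N m ∈ U :=
  hU.up _ (h.ann j m hm) _ (h.compat.HS_col hN hm) (col_mono bot_le m)

theorem swap_step (hU : Fam A U) (hΨ : CycAdd A U Ψ) (h : Adm A U g) {N : Submodule R M}
    (hN : g.HS N) {j j' : Γ} {m m' : M} (hm : g.H j m) (hm' : g.H j' m') :
    Ψ (col N m) j + Ψ (col (adj N m) m') j' = Ψ (col N m') j' + Ψ (col (adj N m') m) j := by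
  have e := transfer hU (Ψ := Ψ) (rel N m m') (j - j') j' (col (adj N m') m) (col (adj N m) m')
    (h.compat.HS_col (h.compat.HS_adj hN hm') hm)
    (fun x y hxy => by
      rw [mem_rel] at hxy
      refine ⟨mem_col.2 (mem_adj.2 ⟨y, hxy⟩), mem_col.2 (mem_adj.2 ⟨x, ?_⟩)⟩
      have := N.neg_mem hxy
      rwa [neg_sub] at this)
    (fun i x hx hxy => by
      obtain ⟨y, hy⟩ := mem_adj.1 (mem_col.1 hxy)
      obtain ⟨h1, h2⟩ := h.compat.partner hN hm hm' hx hy
      exact ⟨_, h1, mem_rel.2 h2⟩)
    (fun y hy => by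
      obtain ⟨x, hx⟩ := mem_adj.1 (mem_col.1 hy)
      refine ⟨x, mem_rel.2 ?_⟩
      have := N.neg_mem hx
      rwa [neg_sub] at this)
    (col N m) (h.col_mem hU hN hm) (col N m') (h.col_mem hU hN hm')
    (col_mono (le_adj N m') m) (col_mono (le_adj N m) m')
    (fun x y hxy => by
      rw [mem_rel] at hxy
      rw [mem_col, mem_col]
      constructor
      · intro hx
        have := N.sub_mem hx hxy
        rwa [sub_sub_cancel] at this
      · intro hy
        have := N.add_mem hxy hy
        rwa [sub_add_cancel] at this)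
    (fun J hJ _ => hΨ J hJ) (fun J hJ _ => hΨ J hJ)
  rw [add_sub_cancel, sub_eq_iff_eq_add] at e
  rw [e]
  abel

theorem lsum_perm (hU : Fam A U) (hΨ : CycAdd A U Ψ) (h : Adm A U g) {l l' : List (Γ × M)}
    (hp : l.Perm l') (hl : g.HL l) {N : Submodule R M} (hN : g.HS N) :
    lsum Ψ N l = lsum Ψ N l' := by
  induction hp generalizing N with
  | nil => rfl
  | cons x _ ih =>
    simp only [lsum]
    rw [ih (fun y hy => hl y (List.mem_cons_of_mem _ hy))
      (h.compat.HS_adj hN (hl x List.mem_cons_self))]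
  | swap x y l =>
    simp only [lsum]
    rw [adj_comm N y.2 x.2, ← add_assoc, ← add_assoc,
      swap_step hU hΨ h hN (hl y List.mem_cons_self)
        (hl x (List.mem_cons_of_mem _ List.mem_cons_self))]
  | trans h1 _ ih1 ih2 =>
    rw [ih1 hl hN, ih2 (fun y hy => hl y (h1.symm.subset hy)) hN]

theorem lsum_indep (hU : Fam A U) (hΨ : CycAdd A U Ψ) (h : Adm A U g) {l l' : List (Γ × M)}
    (hl : g.HL l) (hl' : g.HL l') {N : Submodule R M} (hN : g.HS N)
    (e : adjL N l = adjL N l') : lsum Ψ N l = lsum Ψ N l' := by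
  have h0 := (hΨ ⊤ hU.top).top_eq_zero
  have h1 : lsum Ψ N (l ++ l') = lsum Ψ N l := by
    rw [lsum_append, lsum_of_mem h0 (N := adjL N l) (fun x hx => e ▸ mem_adjL N hx), add_zero]
  have h2 : lsum Ψ N (l' ++ l) = lsum Ψ N l' := by
    rw [lsum_append, lsum_of_mem h0 (N := adjL N l') (fun x hx => e ▸ mem_adjL N hx), add_zero]
  rw [← h1, ← h2]
  refine lsum_perm hU hΨ h List.perm_append_comm (fun x hx => ?_) hN
  rcases List.mem_append.1 hx with hx | hx
  · exact hl x hx
  · exact hl' x hx

/-- generated by finitely many homogeneous elements -/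
def Gr.FG (R : Type*) [CommRing R] [Module R M] (g : Gr Γ M) : Prop :=
  ∃ l : List (Γ × M), g.HL l ∧ adjL (⊥ : Submodule R M) l = ⊤

theorem Gr.fg_of_finite [Module.Finite R M] (g : Gr Γ M) : g.FG R := by
  classical
  obtain ⟨s, hs⟩ := Module.Finite.fg_top (R := R) (M := M)
  choose t ht using g.sum
  refine ⟨(s.biUnion fun m => (t m).image fun i => (i, g.p i m)).toList, ?_, ?_⟩
  · intro x hx
    simp only [Finset.mem_toList, Finset.mem_biUnion, Finset.mem_image] at hx
    obtain ⟨m, -, i, -, rfl⟩ := hx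
    exact g.H_p i m
  · rw [eq_top_iff, ← hs, Submodule.span_le]
    intro m hm
    rw [← ht m]
    refine Submodule.sum_mem _ fun i hi => ?_
    refine mem_adjL ⊥ (x := (i, g.p i m)) ?_
    simp only [Finset.mem_toList, Finset.mem_biUnion, Finset.mem_image]
    exact ⟨m, hm, i, hi, rfl⟩

open Classical in
/-- the invariant of a graded module -/
noncomputable def psi (Ψ : Ideal R → Γ → G) (g : Gr Γ M) : G :=
  if h : g.FG R then lsum Ψ (⊥ : Submodule R M) h.choose else 0

theorem psi_eq (hU : Fam A U) (hΨ : CycAdd A U Ψ) (h : Adm A U g) {l : List (Γ × M)}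
    (hl : g.HL l) (e : adjL (⊥ : Submodule R M) l = ⊤) :
    psi Ψ g = lsum Ψ (⊥ : Submodule R M) l := by
  have hfg : g.FG R := ⟨l, hl, e⟩
  unfold psi
  rw [dif_pos hfg]
  exact lsum_indep hU hΨ h hfg.choose_spec.1 hl g.HS_bot (hfg.choose_spec.2.trans e.symm)

theorem psi_cyclic (hU : Fam A U) (hΨ : CycAdd A U Ψ) (h : Adm A U g) {j : Γ} {m : M}
    (hm : g.H j m) (e : Submodule.span R {m} = ⊤) :
    psi Ψ g = Ψ (col (⊥ : Submodule R M) m) j := by
  rw [psi_eq hU hΨ h (l := [(j, m)]) (fun x hx => by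
    rw [List.mem_singleton.1 hx]
    exact hm) (by simp [adjL, adj, e])]
  simp [lsum]

/-- vanishing on modules all of whose cyclic subquotients are killed -/
theorem psi_eq_zero {U₀ : Set (Ideal R)} (hU₀ : Fam A U₀) (h : Adm A U₀ g)
    (h0 : ∀ J ∈ U₀, ∀ γ, Ψ J γ = 0) : psi Ψ g = 0 := by
  unfold psi
  split_ifs with hfg
  · have key : ∀ (l : List (Γ × M)) (N : Submodule R M), g.HL l → g.HS N → lsum Ψ N l = 0 := by
      intro l
      induction l with
      | nil => intro _ _ _; rfl
      | cons x l ih =>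
        intro N hl hN
        have hx := hl x List.mem_cons_self
        simp only [lsum]
        rw [h0 _ (h.col_mem hU₀ hN hx), zero_add]
        exact ih _ (fun y hy => hl y (List.mem_cons_of_mem _ hy)) (h.compat.HS_adj hN hx)
    exact key _ _ hfg.choose_spec.1 g.HS_bot
  · rfl

theorem adjL_map (f : M' →ₗ[R] M) (N : Submodule R M') (l : List (Γ × M')) :
    adjL (N.map f) (l.map fun x => (x.1, f x.2)) = (adjL N l).map f := by
  induction l generalizing N with
  | nil => rfl
  | cons x l ih =>
    simp only [List.map_cons, adjL]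
    rw [← ih]
    congr 1
    simp [adj, Submodule.map_sup, Submodule.map_span]

theorem lsum_map_inj (Ψ : Ideal R → Γ → G) {f : M' →ₗ[R] M} (hf : Function.Injective f)
    (N : Submodule R M') (l : List (Γ × M')) :
    lsum Ψ (N.map f) (l.map fun x => (x.1, f x.2)) = lsum Ψ N l := by
  induction l generalizing N with
  | nil => rfl
  | cons x l ih =>
    simp only [List.map_cons, lsum]
    have e1 : col (N.map f) (f x.2) = col N x.2 := by
      ext r
      rw [mem_col, mem_col, ← map_smul]
      exact ⟨fun ⟨y, hy, e⟩ => hf e ▸ hy, fun hy => ⟨_, hy, rfl⟩⟩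
    have e2 : adj (N.map f) (f x.2) = (adj N x.2).map f := by
      simp [adj, Submodule.map_sup, Submodule.map_span]
    rw [e1, e2, ih]

theorem adj_comap (q : M →ₗ[R] M'') (N : Submodule R M'') (m : M) :
    adj (N.comap q) m = (adj N (q m)).comap q := by
  ext y
  rw [Submodule.mem_comap, mem_adj, mem_adj]
  simp

theorem adjL_comap (q : M →ₗ[R] M'') (N : Submodule R M'') (l : List (Γ × M)) :
    adjL (N.comap q) l = (adjL N (l.map fun x => (x.1, q x.2))).comap q := by
  induction l generalizing N with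
  | nil => rfl
  | cons x l ih =>
    simp only [List.map_cons, adjL]
    rw [adj_comap, ih]

theorem lsum_comap (Ψ : Ideal R → Γ → G) (q : M →ₗ[R] M'') (N : Submodule R M'')
    (l : List (Γ × M)) :
    lsum Ψ (N.comap q) l = lsum Ψ N (l.map fun x => (x.1, q x.2)) := by
  induction l generalizing N with
  | nil => rfl
  | cons x l ih =>
    simp only [List.map_cons, lsum]
    have e1 : col (N.comap q) x.2 = col N (q x.2) := by
      ext r
      simp
    rw [e1, adj_comap, ih]

/-- **Additivity** in short exact sequences of graded modules. -/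
theorem psi_exact (hU : Fam A U) (hΨ : CycAdd A U Ψ) (h : Adm A U g) (h' : Adm A U g')
    (h'' : Adm A U g'') (fg' : g'.FG R) (fg'' : g''.FG R) {f : M' →ₗ[R] M} {q : M →ₗ[R] M''}
    (hf : Function.Injective f) (hq : Function.Surjective q) (hfq : Function.Exact f q)
    (fh : ∀ j m, g'.H j m → g.H j (f m)) (qh : ∀ j m, q (g.p j m) = g''.p j (q m)) :
    psi Ψ g = psi Ψ g' + psi Ψ g'' := by
  obtain ⟨l', hl', e'⟩ := fg'
  obtain ⟨l'', hl'', e''⟩ := fg''
  choose s hs using hq
  set l₂ : List (Γ × M) := l''.map fun x => (x.1, g.p x.1 (s x.2)) with hl₂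
  have hmap : (l₂.map fun x => (x.1, q x.2)) = l'' := by
    rw [hl₂, List.map_map]
    conv_rhs => rw [← List.map_id l'']
    refine List.map_congr_left fun x hx => ?_
    simp only [Function.comp, id]
    rw [qh, hs, hl'' x hx]
  set l₁ : List (Γ × M) := l'.map fun x => (x.1, f x.2) with hl₁
  have e1 : adjL (⊥ : Submodule R M) l₁ = (⊥ : Submodule R M'').comap q := by
    have := adjL_map f ⊥ l'
    rw [Submodule.map_bot, e', Submodule.map_top] at this
    rw [hl₁, this, Submodule.comap_bot]
    exact (LinearMap.exact_iff.1 hfq).symm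
  have hH : g.HL (l₁ ++ l₂) := by
    intro x hx
    rcases List.mem_append.1 hx with hx | hx
    · obtain ⟨y, hy, rfl⟩ := List.mem_map.1 hx
      exact fh _ _ (hl' y hy)
    · obtain ⟨y, -, rfl⟩ := List.mem_map.1 hx
      exact g.H_p _ _
  have etop : adjL (⊥ : Submodule R M) (l₁ ++ l₂) = ⊤ := by
    rw [adjL_append, e1, adjL_comap, hmap, e'', Submodule.comap_top]
  rw [psi_eq hU hΨ h hH etop, psi_eq hU hΨ h' hl' e', psi_eq hU hΨ h'' hl'' e'', lsum_append, e1,
    lsum_comap, hmap]
  congr 1
  have := lsum_map_inj Ψ hf ⊥ l'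
  rwa [Submodule.map_bot] at this

/-- invariance under graded isomorphisms -/
theorem psi_equiv (hU : Fam A U) (hΨ : CycAdd A U Ψ) (h : Adm A U g) (h' : Adm A U g')
    (fg' : g'.FG R) (f : M' ≃ₗ[R] M) (fh : ∀ j m, g'.H j m → g.H j (f m)) :
    psi Ψ g = psi Ψ g' := by
  obtain ⟨l', hl', e'⟩ := fg'
  have e1 := adjL_map (f : M' →ₗ[R] M) ⊥ l'
  rw [Submodule.map_bot, e', Submodule.map_top, LinearEquiv.range] at e1
  rw [psi_eq hU hΨ h (fun x hx => by
    obtain ⟨y, hy, rfl⟩ := List.mem_map.1 hx
    exact fh _ _ (hl' y hy)) e1, psi_eq hU hΨ h' hl' e']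
  have := lsum_map_inj Ψ (f := (f : M' →ₗ[R] M)) f.injective ⊥ l'
  rwa [Submodule.map_bot] at this

end Crest.Agent.N265.Psi
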