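import Crest.Agent.N265.Psi.Defs
import Crest.Agent.N265.Psi.Mod
import Crest.Agent.N265.Jac.Tan

/-!
# Row 265, PSI part 4 (helper25): the gradings of `R` and of a `GM` as projections

`Dg` : a diagonalisable operator with eigenvalues `chi d`; `Dg.gr` its projections.
`grR : GrR D R`, `grM M : Gr D M.M`, `compat_grM`, stable submodules are homogeneous,
homogeneously prime ideals are prime, scaling of homogeneous polynomials.
-/

set_option autoImplicit false
set_option linter.unusedSectionVars false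
noncomputable section
open MvPolynomial

namespace Crest.Agent.N265.Psi

section Dg

variable {M : Type*} [AddCommGroup M] [Module ℂ M]

/-- diagonalisable with eigenvalues `chi d` -/
def Dg (g : M →ₗ[ℂ] M) : Prop :=
  ∀ m : M, m ∈ AddSubgroup.closure {m : M | ∃ d : D, g m = chi d • m}

/-- the eigenspace of degree `d` -/
abbrev eig (g : M →ₗ[ℂ] M) (d : D) : Submodule ℂ M := Module.End.eigenspace g (chi d)

theorem mem_eig {g : M →ₗ[ℂ] M} {d : D} {m : M} : m ∈ eig g d ↔ g m = chi d • m :=
  Module.End.mem_eigenspace_iff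

theorem Dg.isInternal {g : M →ₗ[ℂ] M} (h : Dg g) : DirectSum.IsInternal (eig g) := by
  refine DirectSum.isInternal_submodule_of_iSupIndep_of_iSup_eq_top
    ((Module.End.eigenspaces_iSupIndep g).comp chi_inj) ?_
  rw [eq_top_iff]
  intro m hm
  clear hm
  induction h m using AddSubgroup.closure_induction with
  | mem x hx =>
    obtain ⟨d, hd⟩ := hx
    exact Submodule.mem_iSup_of_mem d (mem_eig.2 hd)
  | zero => exact zero_mem _
  | add x y _ _ hx hy => exact add_mem hx hy
  | neg x _ hx => exact neg_mem hx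

/-- the projections -/
def Dg.gr {g : M →ₗ[ℂ] M} (h : Dg g) : Gr D M :=
  letI := h.isInternal.chooseDecomposition
  { p := fun d =>
      { toFun := fun m => (DirectSum.decompose (eig g) m d : M)
        map_zero' := by simp
        map_add' := by intro a b; simp }
    sum := fun m => by
      classical
      exact ⟨_, DirectSum.sum_support_decompose (eig g) m⟩
    idem := fun i m => DirectSum.decompose_of_mem_same (eig g) (SetLike.coe_mem _) }

theorem Dg.p_mem {g : M →ₗ[ℂ] M} (h : Dg g) (d : D) (m : M) : h.gr.p d m ∈ eig g d :=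
  SetLike.coe_mem _

theorem Dg.p_same {g : M →ₗ[ℂ] M} (h : Dg g) {d : D} {m : M} (hm : m ∈ eig g d) :
    h.gr.p d m = m :=
  letI := h.isInternal.chooseDecomposition
  DirectSum.decompose_of_mem_same (eig g) hm

theorem Dg.p_ne {g : M →ₗ[ℂ] M} (h : Dg g) {d d' : D} {m : M} (hm : m ∈ eig g d) (hd : d ≠ d') :
    h.gr.p d' m = 0 :=
  letI := h.isInternal.chooseDecomposition
  DirectSum.decompose_of_mem_ne (eig g) hm hd

theorem Dg.H_iff {g : M →ₗ[ℂ] M} (h : Dg g) {d : D} {m : M} : h.gr.H d m ↔ m ∈ eig g d :=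
  ⟨fun e => e ▸ h.p_mem d m, h.p_same⟩

/-- an additive map that shifts degrees commutes with the projections -/
theorem Dg.map_p {M' : Type*} [AddCommGroup M'] [Module ℂ M'] {g : M →ₗ[ℂ] M}
    {g' : M' →ₗ[ℂ] M'} (h : Dg g) (h' : Dg g') (f : M →+ M') (j : D)
    (hf : ∀ i, ∀ m ∈ eig g i, f m ∈ eig g' (i + j)) (i : D) (m : M) :
    h'.gr.p (i + j) (f m) = f (h.gr.p i m) := by
  induction h m using AddSubgroup.closure_induction with
  | mem x hx =>
    obtain ⟨d, hd⟩ := hx
    have hx := mem_eig.2 hd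
    by_cases e : d = i
    · subst e
      rw [h.p_same hx, h'.p_same (hf d x hx)]
    · rw [h.p_ne hx e, h'.p_ne (hf d x hx) fun e' => e (add_right_cancel e'), map_zero]
  | zero => simp
  | add x y _ _ hx hy => simp only [map_add, hx, hy]
  | neg x _ hx => simp only [map_neg, hx]

/-- stable subspaces contain the components of their elements -/
theorem Dg.p_mem_of_stab {g : M →ₗ[ℂ] M} (h : Dg g) (N : Submodule ℂ M)
    (hN : ∀ m ∈ N, g m ∈ N) (i : D) {m : M} (hm : m ∈ N) : h.gr.p i m ∈ N := by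
  classical
  have key : ∀ (s : Finset D) (f : D → M), (∀ d, f d ∈ eig g d) → ∑ d ∈ s, f d ∈ N →
      ∀ d ∈ s, f d ∈ N := by
    intro s
    induction s using Finset.induction_on with
    | empty => simp
    | insert a s ha ih =>
      intro f hf hs
      have h1 : ∑ d ∈ s, (chi d - chi a) • f d ∈ N := by
        have h2 := N.sub_mem (hN _ hs) (N.smul_mem (chi a) hs)
        rw [map_sum, Finset.smul_sum, ← Finset.sum_sub_distrib, Finset.sum_insert ha,
          mem_eig.1 (hf a), sub_self, zero_add] at h2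
        convert h2 using 2 with d
        rw [mem_eig.1 (hf d), sub_smul]
      have h3 : ∀ d ∈ s, f d ∈ N := fun d hd => by
        have h4 := ih (fun d => (chi d - chi a) • f d) (fun d => Submodule.smul_mem _ _ (hf d)) h1
          d hd
        have h5 : chi d - chi a ≠ 0 := sub_ne_zero.2 fun e => ha (chi_inj e ▸ hd)
        exact (N.smul_mem_iff h5).1 h4
      intro d hd
      rcases Finset.mem_insert.1 hd with rfl | hd
      · rw [Finset.sum_insert ha] at hs
        exact (N.add_mem_iff_left (N.sum_mem h3)).1 hs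
      · exact h3 d hd
  obtain ⟨s, hs⟩ := h.gr.sum m
  by_cases hi : i ∈ s
  · exact key s (fun d => h.gr.p d m) (fun d => h.p_mem d m) (hs.symm ▸ hm) i hi
  · rw [← hs, map_sum]
    refine N.sum_mem fun d hd => ?_
    have hne : d ≠ i := fun e => hi (e ▸ hd)
    rw [h.p_ne (h.p_mem d m) hne]
    exact zero_mem _

end Dg

/-! ### the ring `R` -/

/-- degree of a monomial -/
def mdeg (s : Var →₀ ℕ) : D := s.sum fun v n => n • vdeg v

theorem chi_nsmul (n : ℕ) (d : D) : chi (n • d) = chi d ^ n := by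
  induction n with
  | zero => simp
  | succ n ih => rw [succ_nsmul, chi_add, ih, pow_succ]

theorem gam_monomial (s : Var →₀ ℕ) (c : ℂ) :
    gam (monomial s c) = C (chi (mdeg s)) * monomial s c := by
  induction s using Finsupp.induction_linear generalizing c with
  | zero => simp [mdeg]
  | add s t hs ht =>
    have e : (monomial (s + t) c : R) = monomial s c * monomial t 1 := by
      rw [monomial_mul, mul_one]
    have e2 : mdeg (s + t) = mdeg s + mdeg t :=
      Finsupp.sum_add_index' (fun _ => by simp) fun _ _ _ => add_smul _ _ _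
    rw [e, map_mul, hs, ht, e2, chi_add, map_mul]
    ring
  | single v n =>
    have e : (monomial (Finsupp.single v n) c : R) = C c * X v ^ n := by
      rw [C_mul_X_pow_eq_monomial]
    have e2 : mdeg (Finsupp.single v n) = n • vdeg v := Finsupp.sum_single_index (by simp)
    rw [e, map_mul, map_pow, gam_C, gam_X, e2, chi_nsmul, map_pow]
    ring

theorem hmg_iff {d : D} {r : R} : Hmg d r ↔ r ∈ eig gamA.toLinearMap d := by
  rw [mem_eig, smul_eq_C_mul]
  rfl

theorem dgR : Dg gamA.toLinearMap := by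
  intro r
  induction r using MvPolynomial.induction_on' with
  | monomial s c =>
    exact AddSubgroup.subset_closure ⟨mdeg s, mem_eig.1 (hmg_iff.1 (gam_monomial s c))⟩
  | add p q hp hq => exact add_mem hp hq

theorem hmg_mul {d e : D} {a b : R} (ha : Hmg d a) (hb : Hmg e b) : Hmg (d + e) (a * b) := by
  unfold Hmg at *
  rw [map_mul, ha, hb, chi_add, map_mul]
  ring

theorem hmg_X (v : Var) : Hmg (vdeg v) (X v) := gam_X v

theorem hmg_C (c : ℂ) : Hmg 0 (C c) := by simp [Hmg]

/-- the grading of `R` -/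
def grR : GrR D R where
  toGr := dgR.gr
  compat := fun i j r m hm => by
    have := dgR.map_p dgR (AddMonoidHom.mulRight m) j (fun i x hx =>
      hmg_iff.1 (hmg_mul (hmg_iff.2 hx) (hmg_iff.2 (dgR.H_iff.1 hm)))) i r
    exact this
  one := dgR.H_iff.2 (hmg_iff.1 (hmg_C 1))

theorem H_iff {d : D} {r : R} : grR.H d r ↔ Hmg d r := dgR.H_iff.trans hmg_iff.symm

theorem HS_iff {J : Ideal R} : grR.HS J ↔ ∀ r ∈ J, gam r ∈ J := by
  constructor
  · intro h r hr
    obtain ⟨s, hs⟩ := grR.sum r
    rw [← hs, map_sum]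
    refine J.sum_mem fun d _ => ?_
    rw [H_iff.1 (grR.H_p d r)]
    exact J.mul_mem_left _ (h d r hr)
  · intro h i r hr
    exact dgR.p_mem_of_stab (J.restrictScalars ℂ) h i hr

theorem Hmg.mdeg_eq {d : D} {r : R} (h : Hmg d r) {s : Var →₀ ℕ} (hs : s ∈ r.support) :
    mdeg s = d := by
  have h1 : coeff s (gam r) = chi (mdeg s) * coeff s r := by
    classical
    conv_lhs => rw [r.as_sum, map_sum, coeff_sum]
    rw [Finset.sum_eq_single s]
    · rw [gam_monomial, coeff_C_mul, coeff_monomial, if_pos rfl]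
    · intro t _ ht
      rw [gam_monomial, coeff_C_mul, coeff_monomial, if_neg ht, mul_zero]
    · exact fun h => (h hs).elim
  rw [h, coeff_C_mul] at h1
  exact (chi_inj (mul_right_cancel₀ (mem_support_iff.1 hs) h1)).symm

theorem chiQ_pos (d : D) : 0 < chiQ d :=
  Finset.prod_pos fun i _ => zpow_pos (by exact_mod_cast (prm_prime i).pos) _

/-- homogeneously prime homogeneous ideals are prime -/
theorem HPr.isPrime {P : Ideal R} (hP : HPr grR P) (hh : grR.HS P) : P.IsPrime := by
  classical
  refine ⟨hP.1, fun {x y} hxy => ?_⟩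
  by_contra hc
  push Not at hc
  have key : ∀ x : R, x ∉ P → ∃ i, grR.p i x ∉ P ∧ ∀ k, chiQ i < chiQ k → grR.p k x ∈ P := by
    intro x hx
    obtain ⟨s, hs⟩ := grR.sum x
    have hne : (s.filter fun i => grR.p i x ∉ P).Nonempty := by
      by_contra h0
      rw [Finset.not_nonempty_iff_eq_empty, Finset.filter_eq_empty_iff] at h0
      exact hx (hs ▸ P.sum_mem fun i hi => not_not.1 (h0 hi))
    obtain ⟨i, hi, hmax⟩ := Finset.exists_max_image _ chiQ hne
    refine ⟨i, (Finset.mem_filter.1 hi).2, fun k hk => ?_⟩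
    by_contra hk'
    by_cases hks : k ∈ s
    · exact (hmax k (Finset.mem_filter.2 ⟨hks, hk'⟩)).not_gt hk
    · refine hk' ?_
      rw [← hs, map_sum]
      refine P.sum_mem fun d hd => ?_
      rw [show grR.p k (grR.p d x) = 0 from dgR.p_ne (dgR.p_mem d x) fun e => hks (e ▸ hd)]
      exact zero_mem _
  obtain ⟨i, hi, hi'⟩ := key x hc.1
  obtain ⟨j, hj, hj'⟩ := key y hc.2
  obtain ⟨t, ht⟩ := grR.sum y
  have h1 := hh (i + j) _ hxy
  have h2 : grR.p (i + j) (x * y) = ∑ l ∈ t, grR.p (i + j - l) x * grR.p l y := by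
    conv_lhs => rw [← ht, Finset.mul_sum, map_sum]
    exact Finset.sum_congr rfl fun l _ => grR.compat.p_smul (grR.H_p l y) _ _
  have h3 : ∀ l, l ≠ j → grR.p (i + j - l) x * grR.p l y ∈ P := by
    intro l hl
    rcases lt_trichotomy (chiQ l) (chiQ j) with h | h | h
    · refine P.mul_mem_right _ (hi' _ ?_)
      have e : chiQ (i + j - l) * chiQ l = chiQ i * chiQ j := by
        rw [← chiQ_add, sub_add_cancel, chiQ_add]
      nlinarith [chiQ_pos l, chiQ_pos i, chiQ_pos (i + j - l)]
    · exact (hl (chi_inj (by simp [chi, h]))).elim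
    · exact P.mul_mem_left _ (hj' _ h)
  have hjt : j ∈ t := by
    by_contra hjt
    refine hj ?_
    rw [← ht, map_sum]
    refine P.sum_mem fun d hd => ?_
    rw [show grR.p j (grR.p d y) = 0 from dgR.p_ne (dgR.p_mem d y) fun e => hjt (e ▸ hd)]
    exact zero_mem _
  rw [h2, ← Finset.add_sum_erase t _ hjt, add_sub_cancel_right,
    P.add_mem_iff_left (P.sum_mem fun l hl => h3 l (Finset.ne_of_mem_erase hl))] at h1
  exact (hP.2 i j _ _ (grR.H_p i x) (grR.H_p j y) h1).elim hi hj

/-! ### graded modules -/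

/-- the grading operator as a `ℂ`-linear map -/
def gL (M : GM) : M.M →ₗ[ℂ] M.M where
  toFun := M.g
  map_add' := map_add M.g
  map_smul' c m := by simp only [GM.c_smul, LinearMap.map_smulₛₗ, gam_C, RingHom.id_apply]

theorem dgM (M : GM) : Dg (gL M) := M.diag

theorem mem_gr_iff {M : GM} {d : D} {m : M.M} : m ∈ M.gr d ↔ m ∈ eig (gL M) d := by
  rw [mem_eig]
  rfl

/-- the grading of a graded module -/
def grM (M : GM) : Gr D M.M := (dgM M).gr

theorem HM_iff {M : GM} {d : D} {m : M.M} : (grM M).H d m ↔ m ∈ M.gr d :=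
  (dgM M).H_iff.trans mem_gr_iff.symm

theorem smul_mem_gr {M : GM} {i j : D} {r : R} {m : M.M} (hr : Hmg i r) (hm : m ∈ M.gr j) :
    r • m ∈ M.gr (i + j) := by
  rw [GM.mem_gr] at hm ⊢
  rw [LinearMap.map_smulₛₗ, hr, hm, chi_add, map_mul, smul_smul, smul_smul]
  congr 1
  ring

theorem compat_grM (M : GM) : Compat grR.toGr (grM M) := fun i j r m hm =>
  dgR.map_p (dgM M) (LinearMap.toSpanSingleton R M.M m).toAddMonoidHom j
    (fun _ _ hx => mem_gr_iff.1 (smul_mem_gr (hmg_iff.2 hx) (HM_iff.1 hm))) i r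

theorem deg0_mem_gr {M N : GM} {f : M.M →ₗ[R] N.M} (hf : GM.Deg0 f) {d : D} {m : M.M}
    (hm : m ∈ M.gr d) : f m ∈ N.gr d := by
  rw [GM.mem_gr] at hm ⊢
  rw [← hf, hm, map_smul]

theorem deg0_p {M N : GM} {f : M.M →ₗ[R] N.M} (hf : GM.Deg0 f) (d : D) (m : M.M) :
    f ((grM M).p d m) = (grM N).p d (f m) := by
  have := (dgM M).map_p (dgM N) f.toAddMonoidHom 0
    (fun i x hx => by
      rw [add_zero]
      exact mem_gr_iff.1 (deg0_mem_gr hf (mem_gr_iff.2 hx))) d m
  rw [add_zero] at this
  exact this.symm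

/-! ### points supported on the weight zero variables of one block -/

section Supp

variable {K : Type*} [Field K] [Algebra ℂ K]

/-- supported on the weight zero variables of the block `b` -/
def Good (b : ℕ) (η : Var → K) : Prop := ∀ v : Var, η v ≠ 0 → v.1 = b ∧ v.2.2 = 0

theorem vdeg_good {b : ℕ} {v : Var} (h : v.1 = b ∧ v.2.2 = 0) : vdeg v = eB b := by
  simp [vdeg, h.1, h.2]

theorem mdeg_good {b : ℕ} {η : Var → K} (hη : Good b η) {s : Var →₀ ℕ} {c : ℂ}
    (h : aeval η (monomial s c : R) ≠ 0) : mdeg s = (s.sum fun _ n => n) • eB b := by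
  rw [aeval_monomial] at h
  have h1 := right_ne_zero_of_mul h
  rw [Finsupp.prod, Finset.prod_ne_zero_iff] at h1
  unfold mdeg Finsupp.sum
  rw [Finset.sum_smul]
  refine Finset.sum_congr rfl fun v hv => ?_
  show s v • vdeg v = s v • eB b
  rw [vdeg_good (hη v fun h0 => h1 v hv (by
    rw [h0]
    exact zero_pow (Finsupp.mem_support_iff.1 hv)))]

theorem nsmul_eB_inj {b : ℕ} {m n : ℕ} (h : m • eB b = n • eB b) : m = n := by
  have := congrArg (fun d : D => d (some b)) h
  simpa [eB] using this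

/-- a homogeneous polynomial that does not vanish at a good point has degree `n • eB b` -/
theorem Good.deg {b : ℕ} {η : Var → K} (hη : Good b η) {d : D} {a : R} (ha : Hmg d a)
    (h : aeval η a ≠ 0) : ∃ n : ℕ, d = n • eB b := by
  rw [a.as_sum, map_sum] at h
  obtain ⟨s, hs, h1⟩ := Finset.exists_ne_zero_of_sum_ne_zero h
  exact ⟨_, (Hmg.mdeg_eq ha hs).symm.trans (mdeg_good hη h1)⟩

/-- scaling -/
theorem Good.scale {b : ℕ} {η : Var → K} (hη : Good b η) {n : ℕ} {a : R}
    (ha : Hmg (n • eB b) a) (c : K) : aeval (c • η) a = c ^ n * aeval η a := by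
  rw [a.as_sum, map_sum, map_sum, Finset.mul_sum]
  refine Finset.sum_congr rfl fun s hs => ?_
  have e : aeval (c • η) (monomial s (coeff s a) : R) =
      c ^ (s.sum fun _ n => n) * aeval η (monomial s (coeff s a) : R) := by
    rw [aeval_monomial, aeval_monomial]
    simp only [Finsupp.prod, Finsupp.sum, Pi.smul_apply, smul_eq_mul, mul_pow,
      Finset.prod_mul_distrib, Finset.prod_pow_eq_pow_sum]
    ring
  rw [e]
  by_cases h0 : aeval η (monomial s (coeff s a) : R) = 0
  · rw [h0, mul_zero, mul_zero]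
  · rw [nsmul_eB_inj ((mdeg_good hη h0).symm.trans (Hmg.mdeg_eq ha hs))]

theorem Good.smul {b : ℕ} {η : Var → K} (hη : Good b η) (c : K) : Good b (c • η) :=
  fun v hv => hη v fun h0 => hv (by simp [h0])

theorem Good.scale_eq_zero {b : ℕ} {η : Var → K} (hη : Good b η) {d : D} {a : R} (ha : Hmg d a)
    (h : aeval η a = 0) (c : K) : aeval (c • η) a = 0 := by
  by_contra h0
  obtain ⟨n, rfl⟩ := (hη.smul c).deg ha h0
  rw [hη.scale ha, h, mul_zero] at h0
  exact h0 rfl

end Supp

end Crest.Agent.N265.Psi
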