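import Crest.Agent.N265.Psi.Cyc

/-!
# Row 265, PSI part 3 (helper25): the three levels (points, curves, surface)

Abstract setting `Ctx`: a graded ring, a homogeneous prime `I₀`, linear forms `L` of degree `e`.
`level0` : the cycle of a zero-dimensional ideal.  `main` : a function on zero-dimensional ideals
that kills principal divisors on curves extends, after an injective change of the target group,
to all homogeneous ideals containing `I₀`, if the surface is normal.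
-/

set_option autoImplicit false
set_option linter.unusedSectionVars false

namespace Crest.Agent.N265.Psi

variable {Γ : Type*} [AddCommGroup Γ] {R : Type*} [CommRing R] {G : Type*} [AddCommGroup G]

theorem exists_integral (f : ℤ → G) : ∃ w : ℤ → G, ∀ k, w k = f k + w (k + 1) := by
  refine ⟨fun k => match k with
    | Int.ofNat n => -∑ i ∈ Finset.range n, f i
    | Int.negSucc n => ∑ i ∈ Finset.range (n + 1), f (Int.negSucc i), fun k => ?_⟩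
  rcases k with n | n
  · show -∑ i ∈ Finset.range n, f i = f n + -∑ i ∈ Finset.range (n + 1), f i
    rw [Finset.sum_range_succ]
    abel
  · rcases n with _ | n
    · show ∑ i ∈ Finset.range 1, f (Int.negSucc i) = f (Int.negSucc 0) +
        -∑ i ∈ Finset.range 0, f i
      simp
    · show ∑ i ∈ Finset.range (n + 1 + 1), f (Int.negSucc i) = f (Int.negSucc (n + 1)) +
        ∑ i ∈ Finset.range (n + 1), f (Int.negSucc i)
      rw [Finset.sum_range_succ, add_comm]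

/-- the multiplication rule for principal ideals over a prime -/
theorem mul_rule {A : GrR Γ R} {Ψ : Ideal R → Γ → G} {P : Ideal R} (hP : HPr A P) (hh : A.HS P)
    {d : Γ} {a c : R} (ha : A.H d a) (haP : a ∉ P) (h : AddAt A Ψ (adj P (a * c))) (γ : Γ) :
    Ψ (adj P (a * c)) γ = Ψ (adj P a) γ + Ψ (adj P c) (γ + d) := by
  have e1 : adj (adj P (a * c)) a = adj P a :=
    le_antisymm (adj_le (adj_le (le_adj P a) (mem_adj.2 ⟨c, by simp [mul_comm]⟩))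
      (self_mem_adj P a)) (adj_mono (le_adj P _) a)
  have e2 : col (adj P (a * c)) a = adj P c := by
    ext r
    rw [mem_col, mem_adj, mem_adj]
    refine exists_congr fun s => ?_
    simp only [smul_eq_mul]
    rw [show r * a - s * (a * c) = (r - s * c) • a by rw [smul_eq_mul]; ring, ← mem_col,
      hP.col_eq hh ha haP]
  rw [h d a γ ha, e1, e2]

/-- the abstract setting -/
structure Ctx (Γ : Type*) [AddCommGroup Γ] (R : Type*) [CommRing R] where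
  A : GrR Γ R
  e : Γ
  π : Γ →+ ℤ
  πe : π e = 1
  I₀ : Ideal R
  hom₀ : A.HS I₀
  pr₀ : HPr A I₀
  L : Set R
  hL : ∀ l ∈ L, A.H e l
  rel₀ : ∃ l ∈ L, l ∉ I₀
  deg : ∀ d a, A.H d a → a ∉ I₀ → ∃ n : ℕ, d = n • e
  wf : WellFounded fun X Y : Ideal R => (A.HS Y ∧ I₀ ≤ Y) ∧ Y < X

namespace Ctx

variable (C : Ctx Γ R)

/-- homogeneous ideals containing `I₀` -/
def U2 : Set (Ideal R) := {J | C.A.HS J ∧ C.I₀ ≤ J}
/-- relevant primes -/
def RP (P : Ideal R) : Prop := P ∈ C.U2 ∧ HPr C.A P ∧ ∃ l ∈ C.L, l ∉ P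
/-- points -/
def IsPt (P : Ideal R) : Prop := C.RP P ∧ ∀ P', C.RP P' → ¬ P < P'
/-- irrelevant ideals -/
def Um : Set (Ideal R) := {J | J ∈ C.U2 ∧ ∀ P, C.RP P → ¬ J ≤ P}
/-- zero-dimensional ideals -/
def U0 : Set (Ideal R) := {J | J ∈ C.U2 ∧ ∀ P, C.RP P → J ≤ P → C.IsPt P}
/-- proper closed subschemes -/
def U1 : Set (Ideal R) := {J | J ∈ C.U2 ∧ J ≠ C.I₀}
/-- curves -/
def IsCv (Q : Ideal R) : Prop := C.RP Q ∧ C.I₀ < Q ∧ ¬ C.IsPt Q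

theorem fam_of {U : Set (Ideal R)} (h : U ⊆ C.U2) (htop : ⊤ ∈ U)
    (hup : ∀ J ∈ U, ∀ J' ∈ C.U2, J ≤ J' → J' ∈ U) : Fam C.A U where
  hom _ hJ := (h hJ).1
  up J hJ J' hJ' hle := hup J hJ J' ⟨hJ', (h hJ).2.trans hle⟩ hle
  top := htop
  wf := Subrelation.wf (fun hxy => ⟨h hxy.1, hxy.2⟩) C.wf

theorem top_mem : ⊤ ∈ C.U2 := ⟨C.A.HS_top, le_top⟩

theorem fam2 : Fam C.A C.U2 := C.fam_of subset_rfl C.top_mem fun _ _ _ h _ => h

theorem famm : Fam C.A C.Um :=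
  C.fam_of (fun _ h => h.1) ⟨C.top_mem, fun _ hP h => hP.2.1.1 (top_le_iff.1 h)⟩
    fun _ hJ _ h hle => ⟨h, fun P hP h' => hJ.2 P hP (hle.trans h')⟩

theorem fam0 : Fam C.A C.U0 :=
  C.fam_of (fun _ h => h.1) ⟨C.top_mem, fun _ hP h => (hP.2.1.1 (top_le_iff.1 h)).elim⟩
    fun _ hJ _ h hle => ⟨h, fun P hP h' => hJ.2 P hP (hle.trans h')⟩

theorem fam1 : Fam C.A C.U1 :=
  C.fam_of (fun _ h => h.1) ⟨C.top_mem, C.pr₀.1.symm⟩
    fun _ hJ _ h hle => ⟨h, fun e => hJ.2 (le_antisymm (e ▸ hle) hJ.1.2)⟩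

theorem Um_sub : C.Um ⊆ C.U0 := fun _ h => ⟨h.1, fun P hP hle => (h.2 P hP hle).elim⟩

variable {C}

theorem rp_of_le {P P' : Ideal R} (hP : P ∈ C.U2) (hp : HPr C.A P) (h' : C.RP P') (hle : P ≤ P') :
    C.RP P := by
  obtain ⟨l, hl, hl'⟩ := h'.2.2
  exact ⟨hP, hp, l, hl, fun h => hl' (hle h)⟩

theorem IsPt.mem_U0 {P : Ideal R} (h : C.IsPt P) : P ∈ C.U0 :=
  ⟨h.1.1, fun P' hP' hle => by
    rcases hle.eq_or_lt with e | e
    · exact e ▸ h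
    · exact (h.2 P' hP' e).elim⟩

theorem IsPt.notMem_Um {P : Ideal R} (h : C.IsPt P) : P ∉ C.Um := fun h' => h'.2 P h.1 le_rfl

theorem isPt_of {P : Ideal R} (hP : P ∈ C.U0) (hm : P ∉ C.Um) (hp : HPr C.A P) : C.IsPt P := by
  have : ∃ P', C.RP P' ∧ P ≤ P' := by
    by_contra hc
    push Not at hc
    exact hm ⟨hP.1, hc⟩
  obtain ⟨P', h1, h2⟩ := this
  exact hP.2 P (rp_of_le hP.1 hp h1 h2) le_rfl

theorem IsPt.adj_mem {P : Ideal R} (h : C.IsPt P) {d : Γ} {a : R} (ha : C.A.H d a)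
    (haP : a ∉ P) : adj P a ∈ C.Um :=
  ⟨C.fam2.adj_mem h.1.1 ha, fun P' hP' hle => h.2 P' hP' ((lt_adj haP).trans_le hle)⟩

theorem IsCv.mem_U1 {Q : Ideal R} (h : C.IsCv Q) : Q ∈ C.U1 := ⟨h.1.1, h.2.1.ne'⟩

theorem IsCv.notMem_U0 {Q : Ideal R} (h : C.IsCv Q) : Q ∉ C.U0 :=
  fun h' => h.2.2 (h'.2 Q h.1 le_rfl)

theorem isCv_of {Q : Ideal R} (hQ : Q ∈ C.U1) (h0 : Q ∉ C.U0) (hp : HPr C.A Q) : C.IsCv Q := by
  have : ∃ P, C.RP P ∧ Q ≤ P ∧ ¬ C.IsPt P := by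
    by_contra hc
    push Not at hc
    exact h0 ⟨hQ.1, hc⟩
  obtain ⟨P, h1, h2, h3⟩ := this
  refine ⟨rp_of_le hQ.1 hp h1 h2, lt_of_le_of_ne hQ.1.2 hQ.2.symm, fun h => ?_⟩
  rcases h2.eq_or_lt with e | e
  · exact h3 (e ▸ h)
  · exact h.2 P h1 e

theorem adj₀_mem {d : Γ} {a : R} (ha : C.A.H d a) (h : a ∉ C.I₀) : adj C.I₀ a ∈ C.U1 :=
  ⟨C.fam2.adj_mem ⟨C.hom₀, le_rfl⟩ ha, (lt_adj h).ne'⟩

variable (C)

/-- dimension at most two -/
def Dim : Prop := ∀ Q P P', C.RP Q → C.RP P → C.RP P' → C.I₀ < Q → Q < P → ¬ P < P'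

/-- normality -/
def Nrm : Prop := ∀ d a b, C.A.H d a → C.A.H d b → a ∉ C.I₀ → b ∉ C.I₀ →
  col (adj C.I₀ b) a ∈ C.Um ∨ ∃ Q e r s, C.IsCv Q ∧ C.A.H e r ∧ C.A.H e s ∧ r ∈ Q ∧ s ∉ Q ∧
    b * s - a * r ∈ C.I₀

variable {C}

theorem IsCv.adj_mem (hd : C.Dim) {Q : Ideal R} (h : C.IsCv Q) {d : Γ} {a : R} (ha : C.A.H d a)
    (haQ : a ∉ Q) : adj Q a ∈ C.U0 :=
  ⟨C.fam2.adj_mem h.1.1 ha, fun P hP hle =>
    ⟨hP, fun P' hP' => hd Q P P' h.1 hP hP' h.2.1 ((lt_adj haQ).trans_le hle)⟩⟩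

variable (C)

/-- the cycle of a zero-dimensional ideal -/
theorem level0 (pt : Ideal R → G) : ∃ Ψ : Ideal R → Γ → G, CycAdd C.A C.U0 Ψ ∧
    (∀ J ∈ C.Um, ∀ γ, Ψ J γ = 0) ∧ ∀ P, C.IsPt P → ∀ γ, Ψ P γ = pt P := by
  obtain ⟨Ψ, h1, h2, h3⟩ := extend C.famm C.fam0 (Ψ₀ := fun _ _ => (0 : G))
    (fun _ _ _ _ _ _ => by simp) (fun P _ => pt P) (fun P hP hm hp d a ha haP =>
      ⟨(isPt_of hP hm hp).adj_mem ha haP, fun _ => by simp⟩)
  exact ⟨Ψ, h1, fun J hJ γ => by rw [h2 J hJ],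
    fun P hP γ => by rw [h3 P hP.mem_U0 hP.notMem_Um hP.1.2.1]⟩

variable {C}

/-- a shift of an additive function is additive -/
theorem cycAdd_comp {U : Set (Ideal R)} (hU : Fam C.A U) (hs : U ⊆ C.U2) {Ψ : Ideal R → Γ → G}
    (h : CycAdd C.A U Ψ) (σ : Γ → Γ) (hσ : ∀ γ (n : ℕ), σ (γ + n • C.e) = σ γ + n • C.e) :
    CycAdd C.A U fun J γ => Ψ J (σ γ) := by
  intro J hJ d a γ ha
  by_cases haJ : a ∈ J
  · simp only [adj_of_mem haJ, col_of_mem haJ, (h ⊤ hU.top).top_eq_zero, add_zero]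
  · obtain ⟨n, rfl⟩ := C.deg d a ha fun h0 => haJ ((hs hJ).2 h0)
    simp only [hσ]
    exact h J hJ _ a _ ha

/-- weights that are invariant under `e` can be multiplied in -/
theorem cycAdd_wt {U : Set (Ideal R)} (hU : Fam C.A U) (hs : U ⊆ C.U2) {Ψ : Ideal R → Γ → G}
    (h : CycAdd C.A U Ψ) (wt : Γ → ℤ) (hw : ∀ γ, wt (γ + C.e) = wt γ) :
    CycAdd C.A U fun J γ => wt γ • Ψ J γ := by
  have hw' : ∀ γ (n : ℕ), wt (γ + n • C.e) = wt γ := fun γ n => by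
    induction n with
    | zero => simp
    | succ n ih => rw [succ_nsmul, ← add_assoc, hw, ih]
  intro J hJ d a γ ha
  by_cases haJ : a ∈ J
  · simp only [adj_of_mem haJ, col_of_mem haJ, (h ⊤ hU.top).top_eq_zero, add_zero, smul_zero]
  · obtain ⟨n, rfl⟩ := C.deg d a ha fun h0 => haJ ((hs hJ).2 h0)
    simp only [hw']
    rw [h J hJ _ a γ ha, smul_add]

variable (C) in
/-- the function only depends on the `e`-degree -/
def Inv (U : Set (Ideal R)) (Ψ : Ideal R → Γ → G) : Prop :=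
  ∀ J ∈ U, ∀ γ, Ψ J γ = Ψ J (C.π γ • C.e)

theorem inv_of {U : Set (Ideal R)} (hU : Fam C.A U) (hs : U ⊆ C.U2) {Ψ : Ideal R → Γ → G}
    (h : CycAdd C.A U Ψ) (hp : ∀ P ∈ U, HPr C.A P → ∀ γ, Ψ P γ = Ψ P (C.π γ • C.e)) :
    C.Inv U Ψ :=
  h.ext hU (cycAdd_comp hU hs h (fun γ => C.π γ • C.e) fun γ n => by
    simp [C.πe, add_smul]) hp

theorem const_of {U : Set (Ideal R)} (hU : Fam C.A U) (hs : U ⊆ C.U2) {Ψ : Ideal R → Γ → G}
    (h : CycAdd C.A U Ψ) (hp : ∀ P ∈ U, HPr C.A P → ∀ γ γ', Ψ P γ = Ψ P γ') :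
    ∀ J ∈ U, ∀ γ γ', Ψ J γ = Ψ J γ' := by
  intro J hJ γ γ'
  have := h.ext hU (cycAdd_comp hU hs h (fun x => x + (γ' - γ)) fun x n => by abel)
    (fun P hP hpr x => hp P hP hpr _ _) J hJ γ
  simpa using this

/-- one step up: the values on a new prime -/
theorem exists_val {U : Set (Ideal R)} (hU : Fam C.A U) {Ψ : Ideal R → Γ → G}
    (h : CycAdd C.A U Ψ) (hi : C.Inv U Ψ) {P : Ideal R} (hP : C.RP P)
    (hadj : ∀ d a, C.A.H d a → a ∉ P → adj P a ∈ U)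
    (hE : ∀ d a b γ, C.A.H d a → C.A.H d b → a ∉ P → b ∉ P → Ψ (adj P a) γ = Ψ (adj P b) γ) :
    ∃ v : Γ → G, (∀ γ, v γ = v (C.π γ • C.e)) ∧
      ∀ d a, C.A.H d a → a ∉ P → ∀ γ, v γ = Ψ (adj P a) γ + v (γ + d) := by
  obtain ⟨⟨hh, hI⟩, hp, l, hl, hlP⟩ := hP
  have hle := C.hL l hl
  obtain ⟨w, hw⟩ := exists_integral fun k => Ψ (adj P l) (k • C.e)
  have key : ∀ (n : ℕ) γ, w (C.π γ) = Ψ (adj P (l ^ n)) γ + w (C.π γ + n) := by
    intro n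
    induction n with
    | zero =>
      intro γ
      rw [pow_zero, show adj P (1 : R) = ⊤ from
        (Ideal.eq_top_iff_one _).2 (self_mem_adj P 1), (h ⊤ hU.top).top_eq_zero]
      simp
    | succ n ih =>
      intro γ
      have h1 := hp.pow_notMem hle hlP n
      have h2 := hadj _ _ (C.A.H_pow hle (n + 1)) (hp.pow_notMem hle hlP (n + 1))
      rw [pow_succ] at h2 ⊢
      rw [mul_rule hp hh (C.A.H_pow hle n) h1 (h _ h2), ih γ, hw (C.π γ + n),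
        hi _ (hadj _ _ hle hlP) (γ + n • C.e)]
      simp only [map_add, map_nsmul, C.πe, nsmul_eq_mul, mul_one, Nat.cast_add, Nat.cast_one,
        add_assoc]
  refine ⟨fun γ => w (C.π γ), fun γ => by simp [C.πe], fun d a ha haP γ => ?_⟩
  obtain ⟨n, rfl⟩ := C.deg d a ha fun h0 => haP (hI h0)
  rw [hE _ a (l ^ n) γ ha (C.A.H_pow hle n) haP (hp.pow_notMem hle hlP n)]
  simp only [map_add, map_nsmul, C.πe, nsmul_eq_mul, mul_one]
  exact key n γ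

/-- one step up: extension -/
theorem step {U U' : Set (Ideal R)} (hU : Fam C.A U) (hU' : Fam C.A U') (hs : U' ⊆ C.U2)
    {Ψ : Ideal R → Γ → G} (h : CycAdd C.A U Ψ) (hi : C.Inv U Ψ)
    (hnew : ∀ P ∈ U', P ∉ U → HPr C.A P → C.RP P ∧ (∀ d a, C.A.H d a → a ∉ P → adj P a ∈ U) ∧
      ∀ d a b γ, C.A.H d a → C.A.H d b → a ∉ P → b ∉ P → Ψ (adj P a) γ = Ψ (adj P b) γ) :
    ∃ Ψ' : Ideal R → Γ → G, CycAdd C.A U' Ψ' ∧ C.Inv U' Ψ' ∧ ∀ J ∈ U, Ψ' J = Ψ J := by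
  have hv : ∀ P : Ideal R, ∃ v : Γ → G, P ∈ U' → P ∉ U → HPr C.A P →
      (∀ γ, v γ = v (C.π γ • C.e)) ∧
      ∀ d a, C.A.H d a → a ∉ P → ∀ γ, v γ = Ψ (adj P a) γ + v (γ + d) := by
    intro P
    by_cases hc : P ∈ U' ∧ P ∉ U ∧ HPr C.A P
    · obtain ⟨h1, h2, h3⟩ := hnew P hc.1 hc.2.1 hc.2.2
      obtain ⟨v, hv⟩ := exists_val hU h hi h1 h2 h3
      exact ⟨v, fun _ _ _ => hv⟩
    · exact ⟨0, fun h1 h2 h3 => (hc ⟨h1, h2, h3⟩).elim⟩
  choose v hv using hv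
  obtain ⟨Ψ', h1, h2, h3⟩ := extend hU hU' h v fun P hP hn hp d a ha haP =>
    ⟨(hnew P hP hn hp).2.1 d a ha haP, (hv P hP hn hp).2 d a ha haP⟩
  refine ⟨Ψ', h1, inv_of hU' hs h1 fun P hP hp γ => ?_, h2⟩
  by_cases hn : P ∈ U
  · rw [h2 P hn]
    exact hi P hn γ
  · rw [h3 P hP hn hp]
    exact (hv P hP hn hp).1 γ

open Classical in
/-- the cycle map to curves -/
theorem exists_z (hd : C.Dim) : ∃ z : Ideal R → Γ → Ideal R → ℤ, CycAdd C.A C.U1 z ∧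
    (∀ J ∈ C.U0, ∀ γ, z J γ = 0) ∧ (∀ J ∈ C.U1, ∀ γ γ', z J γ = z J γ') ∧
    ∀ Q, C.IsCv Q → ∀ J ∈ C.U1, ∀ γ, (J ≤ Q → 1 ≤ z J γ Q) ∧ (¬ J ≤ Q → z J γ Q = 0) := by
  obtain ⟨z, h1, h2, h3⟩ := extend C.fam0 C.fam1 (Ψ₀ := fun _ _ => (0 : Ideal R → ℤ))
    (fun _ _ _ _ _ _ => by simp) (fun P _ => Pi.single P 1) (fun P hP hm hp d a ha haP =>
      ⟨(isCv_of hP hm hp).adj_mem hd ha haP, fun _ => by simp⟩)
  have h2' : ∀ J ∈ C.U0, ∀ γ, z J γ = 0 := fun J hJ γ => by rw [h2 J hJ]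
  refine ⟨z, h1, h2', const_of C.fam1 (fun _ h => h.1) h1 fun P hP hp γ γ' => ?_, ?_⟩
  · by_cases h0 : P ∈ C.U0
    · rw [h2' P h0, h2' P h0]
    · rw [h3 P hP h0 hp]
  intro Q hQ
  have key : ∀ J ∈ C.U1, ∀ γ, 0 ≤ z J γ Q ∧ (J ≤ Q → 1 ≤ z J γ Q) ∧ (¬ J ≤ Q → z J γ Q = 0) := by
    refine C.fam1.induction (fun γ => ?_) (fun P hP hp γ => ?_) fun J hJ d a γ ha i1 i2 => ?_
    · rw [(h1 ⊤ C.fam1.top).top_eq_zero]
      exact ⟨le_rfl, fun h => (hQ.1.2.1.1 (top_le_iff.1 h)).elim, fun _ => rfl⟩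
    · have hPQ : P ≤ Q → P = Q := fun hle => by
        by_contra hne
        have h4 := hQ.2.2
        unfold IsPt at h4
        push Not at h4
        obtain ⟨P', h5, h6⟩ := h4 hQ.1
        exact hd P Q P' (rp_of_le hP.1 hp hQ.1 hle) hQ.1 h5 (lt_of_le_of_ne hP.1.2 hP.2.symm)
          (lt_of_le_of_ne hle hne) h6
      by_cases h0 : P ∈ C.U0
      · rw [h2' P h0]
        exact ⟨le_rfl, fun hle => (hQ.notMem_U0 (hPQ hle ▸ h0)).elim, fun _ => rfl⟩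
      · rw [h3 P hP h0 hp]
        by_cases e : P = Q
        · subst e
          simp
        · simp only [Pi.single_eq_of_ne (Ne.symm e), le_refl, true_and, implies_true, and_true]
          exact fun hle => (e (hPQ hle)).elim
    · rw [h1 J hJ d a γ ha, Pi.add_apply]
      refine ⟨add_nonneg i1.1 i2.1, fun hle => ?_, fun hle => ?_⟩
      · by_cases haQ : a ∈ Q
        · have := i1.2.1 (adj_le hle haQ)
          linarith [i2.1]
        · have := i2.2.1 ((col_mono hle a).trans (hQ.1.2.1.col_eq hQ.1.1.1 ha haQ).le)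
          linarith [i1.1]
      · rw [i1.2.2 fun h => hle ((le_adj J a).trans h),
          i2.2.2 fun h => hle ((le_col J a).trans h), add_zero]
  exact fun J hJ γ => (key J hJ γ).2

/-- differences of principal ideals do not depend on the twist -/
theorem twist {χ : Ideal R → Γ → G} (h : CycAdd C.A C.U1 χ) (hi : C.Inv C.U1 χ) {d : Γ}
    {a b : R} (ha : C.A.H d a) (hb : C.A.H d b) (ha' : a ∉ C.I₀) (hb' : b ∉ C.I₀) (γ : Γ) :
    χ (adj C.I₀ a) γ - χ (adj C.I₀ b) γ = χ (adj C.I₀ a) 0 - χ (adj C.I₀ b) 0 := by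
  obtain ⟨l, hl, hl'⟩ := C.rel₀
  have hle := C.hL l hl
  have one : ∀ {a : R}, C.A.H d a → a ∉ C.I₀ → ∀ γ, χ (adj C.I₀ a) (γ + C.e) =
      χ (adj C.I₀ a) γ + (χ (adj C.I₀ l) (γ + d) - χ (adj C.I₀ l) γ) := by
    intro a ha ha' γ
    have hm := h _ (adj₀_mem (C.A.H_mul ha hle) (C.pr₀.mul_notMem ha hle ha' hl'))
    have e1 := mul_rule C.pr₀ C.hom₀ ha ha' hm γ
    rw [mul_comm a l] at hm e1
    have e2 := mul_rule C.pr₀ C.hom₀ hle hl' hm γ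
    rw [e2] at e1
    rw [← add_sub_assoc, ← e1]
    abel
  have stp : ∀ γ, χ (adj C.I₀ a) (γ + C.e) - χ (adj C.I₀ b) (γ + C.e) =
      χ (adj C.I₀ a) γ - χ (adj C.I₀ b) γ := fun γ => by
    rw [one ha ha', one hb hb']
    abel
  rw [hi _ (adj₀_mem ha ha') γ, hi _ (adj₀_mem hb hb') γ]
  induction C.π γ using Int.induction_on with
  | zero => simp
  | succ k ih => rw [add_smul, one_smul, stp, ih]
  | pred k ih => rw [← stp, sub_smul, one_smul, sub_add_cancel, ih]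

/-- the subgroup of principal divisors on the surface -/
def prin (χ : Ideal R → Γ → G) (h : CycAdd C.A C.U1 χ) (hi : C.Inv C.U1 χ) : AddSubgroup G where
  carrier := {g | ∃ d a b, C.A.H d a ∧ C.A.H d b ∧ a ∉ C.I₀ ∧ b ∉ C.I₀ ∧
    g = χ (adj C.I₀ a) 0 - χ (adj C.I₀ b) 0}
  zero_mem' := ⟨0, 1, 1, C.A.one, C.A.one, C.pr₀.one_notMem, C.pr₀.one_notMem, by simp⟩
  neg_mem' := by
    rintro _ ⟨d, a, b, h1, h2, h3, h4, rfl⟩
    exact ⟨d, b, a, h2, h1, h4, h3, by simp⟩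
  add_mem' := by
    rintro _ _ ⟨d, a, b, h1, h2, h3, h4, rfl⟩ ⟨d', a', b', h1', h2', h3', h4', rfl⟩
    have k1 := C.pr₀.mul_notMem h1 h1' h3 h3'
    have k2 := C.pr₀.mul_notMem h2 h2' h4 h4'
    refine ⟨d + d', a * a', b * b', C.A.H_mul h1 h1', C.A.H_mul h2 h2', k1, k2, ?_⟩
    rw [mul_rule C.pr₀ C.hom₀ h1 h3 (h _ (adj₀_mem (C.A.H_mul h1 h1') k1)),
      mul_rule C.pr₀ C.hom₀ h2 h4 (h _ (adj₀_mem (C.A.H_mul h2 h2') k2)),
      ← twist h hi h1' h2' h3' h4' (0 + d)]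
    abel

universe u

/-- **Main theorem** on ideals. -/
theorem main {R : Type u} [CommRing R] {G : Type u} [AddCommGroup G] {C : Ctx Γ R} (hd : C.Dim)
    (hn : C.Nrm) (hbig : C.I₀ ∉ C.U0) {Ψ₀ : Ideal R → Γ → G} (h₀ : CycAdd C.A C.U0 Ψ₀)
    (hm : ∀ J ∈ C.Um, ∀ γ, Ψ₀ J γ = 0) (hi : C.Inv C.U0 Ψ₀)
    (hE : ∀ Q, C.IsCv Q → ∀ d a b γ, C.A.H d a → C.A.H d b → a ∉ Q → b ∉ Q →
      Ψ₀ (adj Q a) γ = Ψ₀ (adj Q b) γ) :
    ∃ (A : Type u) (_ : AddCommGroup A) (κ : G →+ A) (Ψ : Ideal R → Γ → A),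
      Function.Injective κ ∧ CycAdd C.A C.U2 Ψ ∧ ∀ J ∈ C.U0, ∀ γ, Ψ J γ = κ (Ψ₀ J γ) := by
  obtain ⟨ψ, p1, p2, p3⟩ := step C.fam0 C.fam1 (fun _ h => h.1) h₀ hi fun Q hQ h0 hp =>
    ⟨(isCv_of hQ h0 hp).1, fun d a ha haQ => (isCv_of hQ h0 hp).adj_mem hd ha haQ,
      hE Q (isCv_of hQ h0 hp)⟩
  obtain ⟨z, z1, z2, z3, z4⟩ := exists_z hd
  set χ : Ideal R → Γ → (Ideal R → ℤ) × G := fun J γ => (z J γ, ψ J γ) with hχ
  have c1 : CycAdd C.A C.U1 χ := fun J hJ d a γ ha =>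
    Prod.ext (z1 J hJ d a γ ha) (p1 J hJ d a γ ha)
  have c2 : C.Inv C.U1 χ := fun J hJ γ => Prod.ext (z3 J hJ _ _) (p2 J hJ γ)
  set N := prin χ c1 c2 with hN
  obtain ⟨Ψ, q1, -, q3⟩ := step C.fam1 C.fam2 subset_rfl
    (Ψ := fun J γ => QuotientAddGroup.mk' N (χ J γ))
    (fun J hJ d a γ ha => by simp only [c1 J hJ d a γ ha, map_add])
    (fun J hJ γ => by simp only [← c2 J hJ γ]) fun P hP h1 hp => by
      have e : P = C.I₀ := by
        by_contra hne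
        exact h1 ⟨hP, hne⟩
      subst e
      refine ⟨⟨hP, hp, C.rel₀⟩, fun d a ha ha' => adj₀_mem ha ha', fun d a b γ ha hb ha' hb' => ?_⟩
      rw [← sub_eq_zero, ← map_sub, QuotientAddGroup.mk'_apply, QuotientAddGroup.eq_zero_iff,
        twist c1 c2 ha hb ha' hb']
      exact ⟨d, a, b, ha, hb, ha', hb', rfl⟩
  have reg : ∀ d a b, C.A.H d a → C.A.H d b → a ∉ C.I₀ → b ∉ C.I₀ →
      z (adj C.I₀ a) 0 = z (adj C.I₀ b) 0 → ψ (adj C.I₀ b) 0 = ψ (adj (adj C.I₀ b) a) 0 := by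
    intro d a b ha hb ha' hb' hz
    rcases hn d a b ha hb ha' hb' with h | ⟨Q, e, r, s, hQ, hr, hs, hrQ, hsQ, hrel⟩
    · rw [p1 _ (adj₀_mem hb hb') d a 0 ha, p3 _ (C.Um_sub h), hm _ h, add_zero]
    · exfalso
      have hs' : s ∉ C.I₀ := fun h => hsQ (hQ.1.1.2 h)
      have k1 := C.pr₀.mul_notMem hb hs hb' hs'
      have hr' : r ∉ C.I₀ := fun h => k1 (by
        have := C.I₀.add_mem hrel (C.I₀.mul_mem_left a h)
        rwa [sub_add_cancel] at this)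
      have k2 := C.pr₀.mul_notMem ha hr ha' hr'
      have e1 : adj C.I₀ (b * s) = adj C.I₀ (a * r) :=
        le_antisymm (adj_le (le_adj _ _) (mem_adj.2 ⟨1, by simpa using hrel⟩))
          (adj_le (le_adj _ _) (mem_adj.2 ⟨1, by
            have := C.I₀.neg_mem hrel
            simpa using this⟩))
      have e2 := mul_rule C.pr₀ C.hom₀ hb hb' (z1 _ (adj₀_mem (C.A.H_mul hb hs) k1)) 0
      have e3 := mul_rule C.pr₀ C.hom₀ ha ha' (z1 _ (adj₀_mem (C.A.H_mul ha hr) k2)) 0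
      rw [e1, e3, hz] at e2
      have e4 := congrFun (add_left_cancel e2) Q
      have e5 := (z4 Q hQ _ (adj₀_mem hr hr') (0 + d)).1 (adj_le hQ.1.1.2 hrQ)
      have e6 := (z4 Q hQ _ (adj₀_mem hs hs') (0 + d)).2 fun h => hsQ (h (self_mem_adj _ s))
      omega
  refine ⟨_, inferInstance, (QuotientAddGroup.mk' N).comp (AddMonoidHom.inr _ _), Ψ, ?_, q1,
    fun J hJ γ => ?_⟩
  · rw [injective_iff_map_eq_zero]
    intro g hg
    rw [AddMonoidHom.comp_apply, QuotientAddGroup.mk'_apply, QuotientAddGroup.eq_zero_iff] at hg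
    obtain ⟨d, a, b, ha, hb, ha', hb', e⟩ := hg
    have e1 : z (adj C.I₀ a) 0 = z (adj C.I₀ b) 0 := (sub_eq_zero.1 (congrArg Prod.fst e).symm)
    have e2 : g = ψ (adj C.I₀ a) 0 - ψ (adj C.I₀ b) 0 := congrArg Prod.snd e
    rw [e2, reg d a b ha hb ha' hb' e1, reg d b a hb ha hb' ha' e1.symm, adj_comm, sub_self]
  · have hJ1 : J ∈ C.U1 := ⟨hJ.1, fun e => hbig (e ▸ hJ)⟩
    rw [q3 J hJ1]
    simp only [hχ, z2 J hJ γ, p3 J hJ]
    rfl

end Ctx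

end Crest.Agent.N265.Psi
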