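import Crest.Agent.N265.Psi.Srf

/-!
# Row 265, PSI part 7 (helper25): the local ring of a curve at a point

`CD` : a `K`-point `ξ` specialising to `x`; `CD.O` the local ring, `CD.loc J` the localised ideal;
`len_eq` : the cycle of a zero-dimensional ideal on a curve is given by lengths.
-/

set_option autoImplicit false
set_option linter.unusedSectionVars false
noncomputable section
open MvPolynomial

namespace Crest.Agent.N265.Psi

/-- colength of an ideal -/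
def qlen {O : Type*} [CommRing O] (I : Ideal O) : ℕ∞ := Module.length O (O ⧸ I)

theorem qlen_max {O : Type*} [CommRing O] {I : Ideal O} (h : I.IsMaximal) : qlen I = 1 := by
  rw [qlen, Module.length_eq_one_iff, isSimpleModule_iff_isCoatom]
  exact Ideal.isMaximal_def.1 h

theorem qlen_top {O : Type*} [CommRing O] : qlen (⊤ : Ideal O) = 0 :=
  Module.length_eq_zero_iff.2 (Submodule.Quotient.subsingleton_iff.2 rfl)

theorem qlen_span {O : Type*} [CommRing O] (α : O) : qlen (adj (⊥ : Ideal O) α) = Ring.ord O α := by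
  rw [show adj (⊥ : Ideal O) α = Ideal.span {α} from bot_sup_eq _]
  rfl

theorem len_add {O : Type*} [CommRing O] (I : Ideal O) (α : O) :
    qlen I = qlen (adj I α) + qlen (col I α) := by
  rw [add_comm]
  refine Module.length_eq_add_of_exact
    (Submodule.mapQ (col I α) I (LinearMap.toSpanSingleton O O α) le_rfl)
    (Submodule.factor (le_adj I α)) ?_ (Submodule.factor_surjective _) fun y => ?_
  · rw [injective_iff_map_eq_zero]
    intro z hz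
    obtain ⟨r, rfl⟩ := Submodule.Quotient.mk_surjective _ z
    exact (Submodule.Quotient.mk_eq_zero _).2 (mem_col.2 ((Submodule.Quotient.mk_eq_zero I).1 hz))
  · obtain ⟨r, rfl⟩ := Submodule.Quotient.mk_surjective _ y
    refine Iff.trans (b := r ∈ adj I α) (Submodule.Quotient.mk_eq_zero _) ?_
    rw [mem_adj]
    constructor
    · rintro ⟨s, hs⟩
      exact ⟨Submodule.Quotient.mk s, ((Submodule.Quotient.eq I).2 hs).symm⟩
    · rintro ⟨z, hz⟩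
      obtain ⟨s, rfl⟩ := Submodule.Quotient.mk_surjective _ z
      exact ⟨s, (Submodule.Quotient.eq I).1 hz.symm⟩

theorem hmg_add {d : D} {a b : R} (ha : Hmg d a) (hb : Hmg d b) : Hmg d (a + b) := by
  unfold Hmg at *
  rw [map_add, ha, hb, mul_add]

theorem hmg_sub {d : D} {a b : R} (ha : Hmg d a) (hb : Hmg d b) : Hmg d (a - b) := by
  unfold Hmg at *
  rw [map_sub, ha, hb, mul_sub]

theorem hmg_zero (d : D) : Hmg d 0 := by simp [Hmg]

theorem hmg_one : Hmg 0 1 := by simp [Hmg]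

theorem hmg_mul' {d e : D} {a b : R} (ha : Hmg d a) (hb : Hmg e b) : Hmg (e + d) (a * b) :=
  add_comm d e ▸ hmg_mul ha hb

theorem hmg_Xpow {b : ℕ} {v : Var} (hv : v.1 = b ∧ v.2.2 = 0) (n : ℕ) :
    Hmg (n • eB b) (X v ^ n) :=
  H_iff.1 (grR.H_pow (H_iff.2 (vdeg_good hv ▸ hmg_X v)) n)

/-- a `K`-point specialising to a point -/
structure CD (b : ℕ) (K : Type) [Field K] [Algebra ℂ K] where
  ξ : Var → K
  x : Pt
  gξ : Good b ξ
  gx : Good b x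
  sp : ∀ d a, Hmg d a → aeval ξ a = 0 → eval x a = 0
  x0 : x ≠ 0

namespace CD

variable {b : ℕ} {K : Type} [Field K] [Algebra ℂ K] (c : CD b K)

/-- `f = a / s` -/
structure Rep (f : K) (d : D) (a s : R) : Prop where
  ha : Hmg d a
  hs : Hmg d s
  sx : eval c.x s ≠ 0
  eq : f * aeval c.ξ s = aeval c.ξ a

variable {c}

theorem Rep.ne {f : K} {d : D} {a s : R} (h : c.Rep f d a s) : aeval c.ξ s ≠ 0 :=
  fun h0 => h.sx (c.sp d s h.hs h0)

theorem Rep.mul {f f' : K} {d d' : D} {a s a' s' : R} (h : c.Rep f d a s)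
    (h' : c.Rep f' d' a' s') : c.Rep (f * f') (d + d') (a * a') (s * s') :=
  ⟨hmg_mul h.ha h'.ha, hmg_mul h.hs h'.hs, by rw [map_mul]; exact mul_ne_zero h.sx h'.sx, by
    rw [map_mul, map_mul, ← h.eq, ← h'.eq]
    ring⟩

theorem Rep.add {f f' : K} {d d' : D} {a s a' s' : R} (h : c.Rep f d a s)
    (h' : c.Rep f' d' a' s') : c.Rep (f + f') (d + d') (a * s' + a' * s) (s * s') :=
  ⟨hmg_add (hmg_mul h.ha h'.hs) (hmg_mul' h'.ha h.hs), hmg_mul h.hs h'.hs,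
    by rw [map_mul]; exact mul_ne_zero h.sx h'.sx, by
    simp only [map_mul, map_add, ← h.eq, ← h'.eq]
    ring⟩

theorem Rep.scale {f : K} {d e : D} {a s t : R} (h : c.Rep f d a s) (ht : Hmg e t)
    (htx : eval c.x t ≠ 0) : c.Rep f (e + d) (t * a) (t * s) :=
  ⟨hmg_mul ht h.ha, hmg_mul ht h.hs, by rw [map_mul]; exact mul_ne_zero htx h.sx, by
    rw [map_mul, map_mul, ← h.eq]
    ring⟩

theorem rep_div {d : D} {a s : R} (ha : Hmg d a) (hs : Hmg d s) (sx : eval c.x s ≠ 0) :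
    c.Rep (aeval c.ξ a / aeval c.ξ s) d a s :=
  ⟨ha, hs, sx, div_mul_cancel₀ _ fun h0 => sx (c.sp d s hs h0)⟩

theorem Rep.inv {f : K} {d : D} {a s : R} (h : c.Rep f d a s) (ax : eval c.x a ≠ 0) :
    f ≠ 0 ∧ c.Rep f⁻¹ d s a := by
  have h1 : aeval c.ξ a ≠ 0 := fun h0 => ax (c.sp d a h.ha h0)
  have h2 : f ≠ 0 := fun h0 => h1 (by rw [← h.eq, h0, zero_mul])
  exact ⟨h2, h.hs, h.ha, ax, by rw [← h.eq, inv_mul_cancel_left₀ h2]⟩

/-- two representations are cross-related -/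
theorem Rep.cross {f : K} {d d' : D} {a s a' s' : R} (h : c.Rep f d a s) (h' : c.Rep f d' a' s') :
    Hmg (d + d') (a * s' - a' * s) ∧ aeval c.ξ (a * s' - a' * s) = 0 :=
  ⟨hmg_sub (hmg_mul h.ha h'.hs) (hmg_mul' h'.ha h.hs), by
    simp only [map_mul, map_sub, ← h.eq, ← h'.eq]
    ring⟩

theorem Rep.ne_of_inv {f : K} {d d' : D} {a s a' s' : R} (h : c.Rep f d a s) (hf : f ≠ 0)
    (h' : c.Rep f⁻¹ d' a' s') : eval c.x a ≠ 0 := by
  have h1 := h.mul h'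
  rw [mul_inv_cancel₀ hf] at h1
  have h2 : c.Rep 1 0 1 1 := ⟨hmg_one, hmg_one, by simp, by simp⟩
  obtain ⟨h3, h4⟩ := h1.cross h2
  have h5 := c.sp _ _ h3 h4
  simp only [map_sub, map_mul, mul_one, one_mul, sub_eq_zero] at h5
  intro h0
  rw [h0, zero_mul] at h5
  exact mul_ne_zero h.sx h'.sx h5.symm

variable (c)

theorem exists_den (n : ℕ) : ∃ s, Hmg (n • eB b) s ∧ eval c.x s ≠ 0 := by
  obtain ⟨v, hv⟩ := Function.ne_iff.1 c.x0
  exact ⟨X v ^ n, hmg_Xpow (c.gx v hv) n, by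
    rw [map_pow, eval_X]
    exact pow_ne_zero n hv⟩

/-- the local ring -/
def O : Subalgebra ℂ K where
  carrier := {f | ∃ d a s, c.Rep f d a s}
  mul_mem' := by
    rintro f f' ⟨d, a, s, h⟩ ⟨d', a', s', h'⟩
    exact ⟨_, _, _, h.mul h'⟩
  add_mem' := by
    rintro f f' ⟨d, a, s, h⟩ ⟨d', a', s', h'⟩
    exact ⟨_, _, _, h.add h'⟩
  algebraMap_mem' t := ⟨0, C t, 1, hmg_C t, hmg_one, by simp, by simp⟩

variable {c}

theorem Rep.mem {f : K} {d : D} {a s : R} (h : c.Rep f d a s) : f ∈ c.O := ⟨d, a, s, h⟩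

theorem Rep.isUnit {f : c.O} {d : D} {a s : R} (h : c.Rep f d a s) (ax : eval c.x a ≠ 0) :
    IsUnit f :=
  IsUnit.of_mul_eq_one ⟨(f : K)⁻¹, (h.inv ax).2.mem⟩
    (Subtype.ext (mul_inv_cancel₀ (h.inv ax).1))

instance : IsLocalRing c.O := by
  refine IsLocalRing.of_isUnit_or_isUnit_one_sub_self fun f => ?_
  obtain ⟨d, a, s, h⟩ := f.2
  by_cases ax : eval c.x a = 0
  · refine Or.inr (Rep.isUnit (d := d) (a := s - a) (s := s) ⟨hmg_sub h.hs h.ha, h.hs, h.sx, ?_⟩ ?_)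
    · rw [map_sub, ← h.eq]
      push_cast
      ring
    · rw [map_sub, ax, sub_zero]
      exact h.sx
  · exact Or.inl (h.isUnit ax)

variable (c)

/-- the localisation of an ideal -/
def loc (J : Ideal R) : Ideal c.O where
  carrier := {f | ∃ d a s, c.Rep f d a s ∧ a ∈ J}
  add_mem' := by
    rintro f f' ⟨d, a, s, h, ha⟩ ⟨d', a', s', h', ha'⟩
    exact ⟨_, _, _, h.add h', J.add_mem (J.mul_mem_right _ ha) (J.mul_mem_right _ ha')⟩
  zero_mem' := ⟨0, 0, 1, ⟨hmg_zero 0, hmg_one, by simp, by simp⟩, J.zero_mem⟩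
  smul_mem' := by
    rintro g f ⟨d, a, s, h, ha⟩
    obtain ⟨d', a', s', h'⟩ := g.2
    exact ⟨_, _, _, h'.mul h, J.mul_mem_left _ ha⟩

/-- `J` contains the homogeneous ideal of `ξ` -/
def Ker (J : Ideal R) : Prop := ∀ d a, Hmg d a → aeval c.ξ a = 0 → a ∈ J

variable {c}

theorem loc_mono {J J' : Ideal R} (h : J ≤ J') : c.loc J ≤ c.loc J' := by
  rintro f ⟨d, a, s, h1, h2⟩
  exact ⟨d, a, s, h1, h h2⟩

theorem loc_adj {J : Ideal R} (hJ : grR.HS J) {α : c.O} {d : D} {a s : R} (h : c.Rep α d a s) :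
    c.loc (adj J a) = adj (c.loc J) α := by
  refine le_antisymm ?_ (adj_le (loc_mono (le_adj J a)) ⟨d, a, s, h, self_mem_adj J a⟩)
  rintro f ⟨d', a', s', h', ha'⟩
  obtain ⟨r, hr⟩ := mem_adj.1 ha'
  obtain ⟨h1, h2⟩ := grR.compat.partner hJ (H_iff.2 h'.ha) (H_iff.2 h.ha) grR.one (y := r)
    (by rwa [one_smul])
  set r' := grR.p (0 + (d' - d)) r
  rw [one_smul, smul_eq_mul] at h2
  have e : 0 + (d' - d) + d = d' := by abel
  have h3 := rep_div (c := c) (e ▸ hmg_mul (H_iff.1 h1) h.hs) h'.hs h'.sx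
  refine mem_adj.2 ⟨⟨_, h3.mem⟩, d', a' - r' * a, s',
    ⟨hmg_sub h'.ha (e ▸ hmg_mul (H_iff.1 h1) h.ha), h'.hs, h'.sx, ?_⟩, h2⟩
  have h4 := h'.ne
  show ((f : K) - aeval c.ξ (r' * s) / aeval c.ξ s' * α) * aeval c.ξ s' = _
  rw [map_sub, map_mul, map_mul, ← h.eq, ← h'.eq]
  field_simp

theorem loc_col {J : Ideal R} (hJ : c.Ker J) {α : c.O} {d : D} {a s : R} (h : c.Rep α d a s) :
    c.loc (col J a) = col (c.loc J) α := by
  ext f
  rw [mem_col]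
  constructor
  · rintro ⟨d', a', s', h', ha'⟩
    exact ⟨_, _, _, h'.mul h, mem_col.1 ha'⟩
  · rintro ⟨e, u, t, h1, hu⟩
    obtain ⟨d', a', s', h'⟩ := f.2
    obtain ⟨h2, h3⟩ := (h'.mul h).cross h1
    refine ⟨_, _, _, h'.scale h1.hs h1.sx, mem_col.2 ?_⟩
    have h4 := J.add_mem (hJ _ _ h2 h3) (J.mul_mem_right (s' * s) hu)
    rw [sub_add_cancel] at h4
    rw [smul_eq_mul, show t * a' * a = a' * a * t by ring]
    exact h4

theorem loc_eq_top {J : Ideal R} (hJ : grR.HS J) (h : ¬ J ≤ lineI c.x) : c.loc J = ⊤ := by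
  obtain ⟨d, s, hs, hsJ, hsx⟩ := hJ.exists_H h
  rw [c.gx.hmg_mem_lineI (H_iff.1 hs)] at hsx
  exact (Ideal.eq_top_iff_one _).2 ⟨d, s, s, ⟨H_iff.1 hs, H_iff.1 hs, hsx, by simp⟩, hsJ⟩

theorem loc_isMaximal : (c.loc (lineI c.x)).IsMaximal := by
  rw [Ideal.isMaximal_iff]
  constructor
  · rintro ⟨d, a, s, h, ha⟩
    have h1 : c.Rep (1 : K)⁻¹ d a s := by
      rw [inv_one]
      exact h
    exact Rep.ne_of_inv (f := 1) h one_ne_zero h1 ((c.gx.hmg_mem_lineI h.ha).1 ha)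
  · intro J f _ hf hfJ
    obtain ⟨d, a, s, h⟩ := f.2
    have h1 : eval c.x a ≠ 0 := fun h0 => hf ⟨d, a, s, h, (c.gx.hmg_mem_lineI h.ha).2 h0⟩
    rw [J.eq_top_of_isUnit_mem hfJ (h.isUnit h1)]
    trivial

end CD

variable {b : ℕ} {S : Spc} {h : SurfOK S b}

theorem mem_U0_of_lt {Q J : Ideal R} (hQ : (ctx h).IsCv Q) (hJ : J ∈ (ctx h).U2) (hlt : Q < J) :
    J ∈ (ctx h).U0 :=
  ⟨hJ, fun P hP hle => ⟨hP, fun P' hP' => ctx_dim h Q P P' hQ.1 hP hP' hQ.2.1 (hlt.trans_le hle)⟩⟩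

variable {Ψ : Ideal R → D → (Ideal R →₀ ℤ)}

/-- the support of the cycle of a zero-dimensional ideal -/
theorem supp_cyc (h1 : CycAdd grR (ctx h).U0 Ψ) (h2 : ∀ J ∈ (ctx h).Um, ∀ γ, Ψ J γ = 0)
    (h3 : ∀ P, (ctx h).IsPt P → ∀ γ, Ψ P γ = Finsupp.single P 1) (P : Ideal R) :
    ∀ J ∈ (ctx h).U0, ∀ γ, Ψ J γ P ≠ 0 → (ctx h).IsPt P ∧ J ≤ P := by
  refine (ctx h).fam0.induction (fun γ h0 => ?_) (fun P' hP' hp γ h0 => ?_)
    fun J hJ d a γ ha i1 i2 h0 => ?_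
  · rw [(h1 ⊤ (ctx h).fam0.top).top_eq_zero] at h0
    exact (h0 rfl).elim
  · by_cases hm : P' ∈ (ctx h).Um
    · rw [h2 P' hm] at h0
      exact (h0 rfl).elim
    · have h4 := Ctx.isPt_of hP' hm hp
      rw [h3 P' h4] at h0
      have e : P = P' := by
        by_contra hne
        exact h0 (Finsupp.single_eq_of_ne hne)
      exact ⟨e ▸ h4, e.ge⟩
  · rw [h1 J hJ d a γ ha, Finsupp.add_apply] at h0
    by_cases h4 : Ψ (adj J a) γ P = 0
    · rw [h4, zero_add] at h0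
      exact ⟨(i2 h0).1, (le_col J a).trans (i2 h0).2⟩
    · exact ⟨(i1 h4).1, (le_adj J a).trans (i1 h4).2⟩

/-- the multiplicities are lengths -/
theorem len_eq (h1 : CycAdd grR (ctx h).U0 Ψ) (h2 : ∀ J ∈ (ctx h).Um, ∀ γ, Ψ J γ = 0)
    (h3 : ∀ P, (ctx h).IsPt P → ∀ γ, Ψ P γ = Finsupp.single P 1) {Q : Ideal R}
    (hQ : (ctx h).IsCv Q) {K : Type} [Field K] [Algebra ℂ K] (c : CD b K) (hx : c.x ∈ S.pts)
    (hK : c.Ker Q) : ∀ J ∈ {J | J ∈ (ctx h).U2 ∧ Q < J}, ∀ γ, ∃ n : ℕ,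
      qlen (c.loc J) = n ∧ Ψ J γ (lineI c.x) = n := by
  have hF : Fam grR {J | J ∈ (ctx h).U2 ∧ Q < J} :=
    (ctx h).fam_of (fun _ hJ => hJ.1) ⟨(ctx h).top_mem, hQ.1.2.1.1.lt_top⟩
      fun _ hJ _ hJ' hle => ⟨hJ', hJ.2.trans_le hle⟩
  have hno : ∀ J ∈ {J | J ∈ (ctx h).U2 ∧ Q < J}, ¬ J ≤ lineI c.x → ∀ γ, ∃ n : ℕ,
      qlen (c.loc J) = n ∧ Ψ J γ (lineI c.x) = n := by
    intro J hJ hle γ
    refine ⟨0, by rw [CD.loc_eq_top hJ.1.1 hle, qlen_top]; rfl, ?_⟩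
    by_contra h0
    exact hle (supp_cyc h1 h2 h3 _ J (mem_U0_of_lt hQ hJ.1 hJ.2) γ h0).2
  refine hF.induction (fun γ => hno ⊤ hF.top (fun h0 => c.gx.lineI_HPr.1 (top_le_iff.1 h0)) γ)
    (fun P hP hp γ => ?_) fun J hJ d a γ ha i1 i2 => ?_
  · by_cases hle : P ≤ lineI c.x
    · have h4 := (mem_U0_of_lt hQ hP.1 hP.2).2 P (Ctx.rp_of_le hP.1 hp (rp_lineI h hx) hle) le_rfl
      have e : P = lineI c.x := hle.eq_of_not_lt (h4.2 _ (rp_lineI h hx))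
      refine ⟨1, by rw [e, qlen_max CD.loc_isMaximal]; rfl, ?_⟩
      rw [h3 P h4, e]
      simp
    · exact hno P hP hle γ
  · by_cases haJ : a ∈ J
    · rwa [adj_of_mem haJ] at i1
    have hKJ : c.Ker J := fun d a ha h0 => hJ.2.le (hK d a ha h0)
    obtain ⟨n, rfl⟩ := c.gξ.deg (H_iff.1 ha) fun h0 => haJ (hKJ _ a (H_iff.1 ha) h0)
    obtain ⟨s, hs, sx⟩ := c.exists_den n
    have hr := CD.rep_div (c := c) (H_iff.1 ha) hs sx
    obtain ⟨n₁, e1, e1'⟩ := i1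
    obtain ⟨n₂, e2, e2'⟩ := i2
    refine ⟨n₁ + n₂, ?_, ?_⟩
    · rw [len_add _ ⟨_, hr.mem⟩, ← CD.loc_adj hJ.1.1 (α := ⟨_, hr.mem⟩) hr,
        ← CD.loc_col hKJ (α := ⟨_, hr.mem⟩) hr, e1, e2, Nat.cast_add]
    · rw [h1 J (mem_U0_of_lt hQ hJ.1 hJ.2) _ a γ ha, Finsupp.add_apply, e1', e2', Nat.cast_add]

/-- the multiplicity of a principal ideal on a curve is the order of vanishing -/
theorem ord_eq (h1 : CycAdd grR (ctx h).U0 Ψ) (h2 : ∀ J ∈ (ctx h).Um, ∀ γ, Ψ J γ = 0)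
    (h3 : ∀ P, (ctx h).IsPt P → ∀ γ, Ψ P γ = Finsupp.single P 1) {Q : Ideal R}
    (hQ : (ctx h).IsCv Q) {K : Type} [Field K] [Algebra ℂ K] (c : CD b K) (hx : c.x ∈ S.pts)
    (hK : ∀ d a, Hmg d a → (aeval c.ξ a = 0 ↔ a ∈ Q)) {α : c.O} {d : D} {a s : R}
    (hr : c.Rep α d a s) (ha : a ∉ Q) (γ : D) :
    Ψ (adj Q a) γ (lineI c.x) = ((Ring.ord c.O α).toNat : ℤ) := by
  obtain ⟨n, e1, e2⟩ := len_eq h1 h2 h3 hQ c hx (fun d a ha => (hK d a ha).1) (adj Q a)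
    ⟨(ctx h).fam2.adj_mem hQ.1.1 (H_iff.2 hr.ha), lt_adj ha⟩ γ
  have e3 : c.loc Q = ⊥ := by
    rw [eq_bot_iff]
    rintro f ⟨d', a', s', h', ha'⟩
    have h4 := h'.eq
    rw [(hK _ _ h'.ha).2 ha', mul_eq_zero] at h4
    exact Subtype.ext (h4.resolve_right h'.ne)
  rw [CD.loc_adj hQ.1.1.1 hr, e3, qlen_span] at e1
  rw [e2, e1]
  simp

end Crest.Agent.N265.Psi
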