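import Crest.Agent.N265.Psi.Lev
import Crest.Agent.N265.Psi.Grad

/-!
# Row 265, PSI part 5 (helper25): the abstract setting `Ctx` of a surface `S`

`ctx h : Ctx D R` for `h : SurfOK S b`; relevant primes, points `lineI x`, dimension, normality.
-/

set_option autoImplicit false
set_option linter.unusedSectionVars false
noncomputable section
open MvPolynomial

namespace Crest.Agent.N265.Psi

open Crest.Agent.N265.Jac

variable {b : ℕ}

section Pts

variable {x y : Pt}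

theorem Good.hmg_mem_lineI (hx : Good b x) {d : D} {a : R} (ha : Hmg d a) :
    a ∈ lineI x ↔ eval x a = 0 :=
  ⟨fun h => by simpa using h 1 one_ne_zero, fun h c _ => hx.scale_eq_zero ha h c⟩

theorem Good.gpt_eq (hx : Good b x) : gpt x = chi (eB b) • x := by
  funext v
  by_cases h : x v = 0
  · simp [gpt, h]
  · simp [gpt, vdeg_good (hx v h)]

theorem Good.lineI_HS (hx : Good b x) : grR.HS (lineI x) := HS_iff.2 fun r hr c hc => by
  rw [eval_gam, (hx.smul c).gpt_eq, smul_smul]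
  exact hr _ (mul_ne_zero (chi_ne _) hc)

theorem lineI_le_mx (x : Pt) : lineI x ≤ mx x := fun r hr => by
  simpa [mem_mx] using hr 1 one_ne_zero

theorem Good.lineI_HPr (hx : Good b x) : HPr grR (lineI x) := by
  refine ⟨fun h => ?_, fun i j a a' ha ha' h => ?_⟩
  · have := lineI_le_mx x (h ▸ Submodule.mem_top : (1 : R) ∈ lineI x)
    simp [mem_mx] at this
  · rw [hx.hmg_mem_lineI (H_iff.1 ha), hx.hmg_mem_lineI (H_iff.1 ha')]
    have := lineI_le_mx x h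
    rwa [mem_mx, map_mul, mul_eq_zero] at this

theorem Good.le_lineI (hx : Good b x) {J : Ideal R} (hJ : grR.HS J) (h : J ≤ mx x) :
    J ≤ lineI x :=
  hJ.le_of_H fun _ _ ha haJ => (hx.hmg_mem_lineI (H_iff.1 ha)).2 (h haJ)

theorem lineI_smul (x : Pt) {c : ℂ} (hc : c ≠ 0) : lineI (c • x) = lineI x := by
  ext r
  simp only [mem_lineI, smul_smul]
  refine ⟨fun h c' hc' => ?_, fun h c' hc' => h _ (mul_ne_zero hc' hc)⟩
  have := h (c' * c⁻¹) (mul_ne_zero hc' (inv_ne_zero hc))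
  rwa [inv_mul_cancel_right₀ hc] at this

theorem eq_smul_of_lineI_le (hx : x ≠ 0) (hy : y ≠ 0) (h : lineI x ≤ lineI y) :
    ∃ c : ℂ, c ≠ 0 ∧ y = c • x := by
  obtain ⟨v, hv⟩ := Function.ne_iff.1 hx
  have hv' : x v ≠ 0 := hv
  have key : y = (y v / x v) • x := by
    funext w
    have h1 : (C (x v) * X w - C (x w) * X v : R) ∈ lineI x := fun c _ => by
      simp only [map_sub, map_mul, eval_C, eval_X, Pi.smul_apply, smul_eq_mul]
      ring
    have h2 := lineI_le_mx y (h h1)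
    simp only [mem_mx, map_sub, map_mul, eval_C, eval_X] at h2
    simp only [Pi.smul_apply, smul_eq_mul]
    field_simp
    linear_combination h2
  refine ⟨_, fun h0 => hy ?_, key⟩
  rw [key, h0, zero_smul]

end Pts

theorem wf_of_finJ {I : Ideal R} (hI : FinJ I) :
    WellFounded fun X Y : Ideal R => I ≤ Y ∧ Y < X := by
  have := hI.noeth
  have hwf : WellFounded fun X Y : Ideal (R ⧸ I) => Y < X := wellFounded_gt
  refine Subrelation.wf (r := InvImage (fun X Y : Ideal (R ⧸ I) => Y < X)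
    (Ideal.map (Ideal.Quotient.mk I))) (fun {X Y} h => ?_) (InvImage.wf _ hwf)
  refine lt_of_le_of_ne (Ideal.map_mono h.2.le) fun e => h.2.ne ?_
  have h1 := congrArg (Ideal.comap (Ideal.Quotient.mk I)) e
  rw [Ideal.comap_map_of_surjective _ Ideal.Quotient.mk_surjective,
    Ideal.comap_map_of_surjective _ Ideal.Quotient.mk_surjective, ← RingHom.ker_eq_comap_bot,
    Ideal.mk_ker, sup_of_le_left h.1, sup_of_le_left (h.1.trans h.2.le)] at h1
  exact h1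

variable {S : Spc}

theorem I_HS (S : Spc) : grR.HS S.I := HS_iff.2 fun _ => Spc.gam_mem_I

theorem _root_.Crest.Agent.N265.SurfOK.good (h : SurfOK S b) {x : Pt} (hx : x ∈ S.pts) :
    Good b x := by
  intro v hv
  obtain ⟨V, hV, h1⟩ := S.fin
  have h2 : v ∈ V := by
    by_contra h3
    exact hv (h1 x hx v h3)
  exact ⟨by simpa [h.blk] using hV v h2, h.wt0 x hx v hv⟩

theorem _root_.Crest.Agent.N265.SurfOK.rel_iff (h : SurfOK S b) {x : Pt} :
    Rel S.B x ↔ ∃ v : Var, v.1 = b ∧ x v ≠ 0 := by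
  simp [Rel, h.blk]

theorem _root_.Crest.Agent.N265.SurfOK.ne_zero (h : SurfOK S b) {x : Pt} (hx : x ∈ S.pts) :
    x ≠ 0 := by
  obtain ⟨v, -, hv⟩ := h.rel_iff.1 (S.rel x hx)
  exact fun e => hv (congrFun e v)

theorem _root_.Crest.Agent.N265.SurfOK.I_le (h : SurfOK S b) {x : Pt} (hx : x ∈ S.pts) :
    S.I ≤ lineI x := (h.good hx).le_lineI (I_HS S) (I_le_mx hx)

theorem _root_.Crest.Agent.N265.SurfOK.smul_mem (h : SurfOK S b) {x : Pt} (hx : x ∈ S.pts) {c : ℂ}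
    (hc : c ≠ 0) : c • x ∈ S.pts := by
  obtain ⟨v, hv, hv'⟩ := h.rel_iff.1 (S.rel x hx)
  exact S.closed _ (h.rel_iff.2 ⟨v, hv, by simp [hc, hv']⟩) fun r hr => h.I_le hx hr c hc

theorem _root_.Crest.Agent.N265.SurfOK.nonempty (h : SurfOK S b) : S.pts.Nonempty := by
  by_contra h0
  rw [Set.not_nonempty_iff_eq_empty] at h0
  exact h.irr.ne_top ((Ideal.eq_top_iff_one _).2 fun x hx => by simp [h0] at hx)

theorem _root_.Crest.Agent.N265.SurfOK.good_var (h : SurfOK S b) {v : Var} (hv : (X v : R) ∉ S.I) :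
    v.1 = b ∧ v.2.2 = 0 := by
  by_contra h0
  refine hv fun x hx => ?_
  rw [eval_X]
  by_contra h1
  exact h0 (h.good hx v h1)

theorem _root_.Crest.Agent.N265.SurfOK.deg (h : SurfOK S b) {d : D} {a : R} (ha : Hmg d a)
    (h0 : a ∉ S.I) : ∃ n : ℕ, d = n • eB b := by
  have : ∃ x ∈ S.pts, eval x a ≠ 0 := by
    by_contra h1
    push Not at h1
    exact h0 h1
  obtain ⟨x, hx, h1⟩ := this
  exact (h.good hx).deg ha h1

/-- the abstract setting attached to a surface -/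
def ctx (h : SurfOK S b) : Ctx D R where
  A := grR
  e := eB b
  π := Finsupp.applyAddHom (some b)
  πe := by simp [eB]
  I₀ := S.I
  hom₀ := I_HS S
  pr₀ := HPr.of_isPrime h.irr
  L := {l | ∃ v : Var, (v.1 = b ∧ v.2.2 = 0) ∧ l = X v}
  hL := by
    rintro _ ⟨v, hv, rfl⟩
    rw [H_iff, ← vdeg_good hv]
    exact hmg_X v
  rel₀ := by
    obtain ⟨x, hx⟩ := h.nonempty
    obtain ⟨v, hv⟩ := Function.ne_iff.1 (h.ne_zero hx)
    exact ⟨X v, ⟨v, h.good hx v hv, rfl⟩, fun h0 => hv (by simpa using h0 x hx)⟩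
  deg d a ha h0 := h.deg (H_iff.1 ha) h0
  wf := Subrelation.wf (fun hxy => ⟨hxy.1.2, hxy.2⟩) (wf_of_finJ (finJ_I S))

variable (h : SurfOK S b)

theorem rp_iff {P : Ideal R} : (ctx h).RP P ↔ RPr S P := by
  constructor
  · rintro ⟨⟨h1, h2⟩, h3, _, ⟨v, -, rfl⟩, h4⟩
    exact ⟨h3.isPrime h1, HS_iff.1 h1, h2, v, h4⟩
  · rintro ⟨h1, h2, h3, v, h4⟩
    exact ⟨⟨HS_iff.2 h2, h3⟩, HPr.of_isPrime h1, X v,
      ⟨v, h.good_var fun h0 => h4 (h3 h0), rfl⟩, h4⟩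

variable {h}

theorem RP.exists_pt {P : Ideal R} (hP : (ctx h).RP P) : ∃ x ∈ S.pts, P ≤ lineI x := by
  obtain ⟨⟨h1, h2⟩, h3, _, ⟨v, hv, rfl⟩, h4⟩ := hP
  have : ∃ y : Pt, P ≤ mx y ∧ eval y (X v) ≠ 0 := by
    by_contra h0
    push Not at h0
    obtain ⟨k, hk⟩ := nss ((finJ_I S).mono h2) h0
    exact h4 ((h3.isPrime h1).mem_of_pow_mem k hk)
  obtain ⟨y, hy, hv'⟩ := this
  have hy' : y ∈ S.pts :=
    S.closed y (h.rel_iff.2 ⟨v, hv.1, by simpa using hv'⟩) fun r hr => hy (h2 hr)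
  exact ⟨y, hy', (h.good hy').le_lineI h1 hy⟩

variable (h)

theorem rp_lineI {x : Pt} (hx : x ∈ S.pts) : (ctx h).RP (lineI x) := by
  obtain ⟨v, hv⟩ := Function.ne_iff.1 (h.ne_zero hx)
  refine ⟨⟨(h.good hx).lineI_HS, h.I_le hx⟩, (h.good hx).lineI_HPr, X v,
    ⟨v, h.good hx v hv, rfl⟩, fun h0 => hv ?_⟩
  simpa [mem_mx] using lineI_le_mx x h0

include h in
theorem lineI_eq_of_le {x y : Pt} (hx : x ∈ S.pts) (hy : y ∈ S.pts) (hle : lineI x ≤ lineI y) :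
    lineI y = lineI x := by
  obtain ⟨c, hc, rfl⟩ := eq_smul_of_lineI_le (h.ne_zero hx) (h.ne_zero hy) hle
  exact lineI_smul x hc

theorem isPt_lineI {x : Pt} (hx : x ∈ S.pts) : (ctx h).IsPt (lineI x) := by
  refine ⟨rp_lineI h hx, fun P hP hlt => ?_⟩
  obtain ⟨y, hy, hle⟩ := RP.exists_pt hP
  exact (hlt.trans_le hle).ne' (lineI_eq_of_le h hx hy (hlt.le.trans hle))

theorem isPt_iff {P : Ideal R} : (ctx h).IsPt P ↔ ∃ x ∈ S.pts, P = lineI x := by
  constructor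
  · intro hP
    obtain ⟨x, hx, hle⟩ := RP.exists_pt hP.1
    exact ⟨x, hx, hle.eq_of_not_lt (hP.2 _ (rp_lineI h hx))⟩
  · rintro ⟨x, hx, rfl⟩
    exact isPt_lineI h hx

theorem mem_Um {J : Ideal R} (hJ : J ∈ (ctx h).U2) (h0 : ∀ x ∈ S.pts, ¬ J ≤ mx x) :
    J ∈ (ctx h).Um :=
  ⟨hJ, fun P hP hle => by
    obtain ⟨x, hx, h1⟩ := RP.exists_pt hP
    exact h0 x hx ((hle.trans h1).trans (lineI_le_mx x))⟩

theorem ctx_dim : (ctx h).Dim := fun Q P P' hQ hP hP' =>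
  h.dim Q P P' ((rp_iff h).1 hQ) ((rp_iff h).1 hP) ((rp_iff h).1 hP')

theorem ctx_nrm : (ctx h).Nrm := by
  intro d a a' ha ha' h1 h2
  rcases h.nrm d a a' (H_iff.1 ha) (H_iff.1 ha') h1 h2 with h3 |
    ⟨Q, P, e, r, s, hQ, hP, hlt, hr, hs, hrQ, hsQ, hrel⟩
  · refine Or.inl (mem_Um h ((ctx h).fam2.col_mem ((ctx h).fam2.adj_mem ⟨I_HS S, le_rfl⟩ ha') ha)
      fun x hx hle => ?_)
    obtain ⟨s, t, hs, hst⟩ := h3 x hx
    exact hs (hle (mem_col.2 (mem_adj.2 ⟨t, hst⟩)))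
  · refine Or.inr ⟨Q, e, r, s, ⟨(rp_iff h).2 hQ, lt_of_le_of_ne hQ.le fun e => ?_,
      fun h0 => h0.2 P ((rp_iff h).2 hP) hlt⟩, H_iff.2 hr, H_iff.2 hs, hrQ, hsQ, hrel⟩
    have e' : S.I = Q := e
    rw [← e'] at hrQ hsQ
    have := S.I.add_mem hrel (S.I.mul_mem_left a hrQ)
    rw [sub_add_cancel] at this
    exact (h.irr.mem_or_mem this).elim h2 hsQ

theorem ctx_big : (ctx h).I₀ ∉ (ctx h).U0 := fun h0 => by
  obtain ⟨x, hx, e⟩ := (isPt_iff h).1
    (h0.2 _ ⟨⟨(ctx h).hom₀, le_rfl⟩, (ctx h).pr₀, (ctx h).rel₀⟩ le_rfl)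
  exact (h.big x hx).ne e

end Crest.Agent.N265.Psi
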